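import Crest.Agent.N250.T.FsC
import Crest.Agent.N250.FV.Ch
import Crest.Agent.N250.T.Lim
import Crest.Agent.N250.MP.Ret
import Crest.Agent.N250.Tr.Meas
import Crest.Agent.N250.T.Stm
import Crest.Agent.N250.Tr.Pull
import Crest.Agent.N250.Or.Had
import Crest.Agent.N250.Cv.Jet
import Crest.Agent.N250.Gr.AA

-- ▼ part N250/T/Dens
section

/-!
# Row 250 (helper49): density one at points of a smooth moving surface (`DensS`), `ReachedS`
-/

set_option autoImplicit false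
open MeasureTheory Set Filter Topology
open scoped ContDiff InnerProductSpace
open Crest.GeometryTopology.MCF
open ContinuousLinearMap (adjoint)

noncomputable section

namespace Crest.Agent.N250

namespace Gau

open FV

lemma plane_int : ∫ w : E2, (4 * Real.pi)⁻¹ * Real.exp (-‖w‖ ^ 2 / 4) = 1 := by
  rw [integral_const_mul]
  have := GaussianFourier.integral_rexp_neg_mul_sq_norm (V := E2) (b := 1 / 4) (by norm_num)
  have e : (fun a : E2 => Real.exp (-‖a‖ ^ 2 / 4)) =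
      fun a : E2 => Real.exp (-(1 / 4) * ‖a‖ ^ 2) := by
    ext a; congr 1; ring
  rw [e, this, finrank_euclideanSpace_fin]
  have hp := Real.pi_pos
  norm_num
  field_simp

lemma plane_intg : Integrable fun w : E2 => (4 * Real.pi)⁻¹ * Real.exp (-‖w‖ ^ 2 / 4) :=
  Integrable.of_integral_ne_zero (by rw [plane_int]; exact one_ne_zero)

lemma gau_scale (y x : E) {r : ℝ} (hr : 0 < r) :
    r ^ 2 * gau y (r ^ 2) x = (4 * Real.pi)⁻¹ * Real.exp (-‖r⁻¹ • (x - y)‖ ^ 2 / 4) := by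
  have hp := Real.pi_pos
  unfold gau
  rw [← mul_assoc, norm_smul, norm_inv, Real.norm_eq_abs, abs_of_pos hr]
  congr 1
  · field_simp
  · congr 1; field_simp

lemma adj_le (Li : E2 →ₗᵢ[ℝ] E) (v : E) : ‖adjoint Li.toContinuousLinearMap v‖ ≤ ‖v‖ := by
  refine (ContinuousLinearMap.le_opNorm _ v).trans (mul_le_of_le_one_left (norm_nonneg _) ?_)
  rw [LinearIsometryEquiv.norm_map]
  exact Li.norm_toContinuousLinearMap_le

lemma jac_iso (Li : E2 →ₗᵢ[ℝ] E) : N222.jac Li.toContinuousLinearMap = 1 := by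
  have : adjoint Li.toContinuousLinearMap ∘L Li.toContinuousLinearMap =
      ContinuousLinearMap.id ℝ E2 :=
    ContinuousLinearMap.ext fun v => N222.adjoint_isometry_apply Li v
  rw [N222.jac, this]
  have : (ContinuousLinearMap.id ℝ E2).det = 1 := LinearMap.det_id
  rw [this, Real.sqrt_one]

/-- a graph chart over the tangent plane -/
lemma exists_ch2 {F : Mv} (hF : F.Reg) {y : E} {t₀ : ℝ} (hp : (y, t₀) ∈ F.M) :
    ∃ (X : E2 × ℝ → E) (U : Set (E2 × ℝ)) (W : Set ST) (L : E →L[ℝ] E2) (Li : E2 →ₗᵢ[ℝ] E),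
      (y, t₀) ∈ W ∧ Ch F X U W L ∧ (∀ v, ‖L v‖ ≤ ‖v‖) ∧
      Jz X (L y, t₀) = Li.toContinuousLinearMap ∧ rho X (L y, t₀) = 1 := by
  obtain ⟨X, U, W, Li, hW, hLi, h⟩ := exists_ch' hF hp
  have hq := h.inU _ hp hW
  have hX := h.right _ hp hW
  have hJ : Jz X (adjoint Li.toContinuousLinearMap y, t₀) = Li.toContinuousLinearMap := by
    refine ContinuousLinearMap.ext fun v => ?_
    have h1 := h.n_Jz hF hq v
    rw [Ps, hX] at h1
    obtain ⟨u, hu⟩ := (hLi _).1 h1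
    have h2 := h.L_fd hq (v, 0)
    rw [← Jz_apply, ← hu, N222.adjoint_isometry_apply] at h2
    have h3 : u = v := h2
    rw [h3] at hu
    exact hu.symm
  exact ⟨X, U, W, _, Li, hW, h, adj_le Li, hJ, by rw [rho, hJ, jac_iso]⟩

/-- density one, along any curve of times tangent to the slice -/
theorem dens {F : Mv} {Λ : ℝ} (hF : F.Reg) (hA : F.AR Λ) {y : E} {t₀ : ℝ} (hp : (y, t₀) ∈ F.M)
    {τ : ℝ → ℝ} (h0 : τ 0 = t₀) (hτ : HasDerivAt τ 0 0) :
    Tendsto (fun r => F.Fs (τ r) y (r ^ 2)) (𝓝[>] 0) (𝓝 1) := by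
  obtain ⟨X, U, W, L, Li, hW, h, hLn, hJ, hρ⟩ := exists_ch2 hF hp
  have hpi := Real.pi_pos
  obtain ⟨z₀, hz₀⟩ : ∃ z₀, z₀ = L y := ⟨_, rfl⟩
  rw [← hz₀] at hJ hρ
  have hq : (z₀, t₀) ∈ U := hz₀ ▸ h.inU _ hp hW
  have hX : X (z₀, t₀) = y := hz₀ ▸ h.right _ hp hW
  have hρc : ContinuousAt (rho X) (z₀, t₀) :=
    h.smRho.continuousOn.continuousAt (h.oU.mem_nhds hq)
  obtain ⟨δ₁, hδ₁, H1⟩ := Metric.eventually_nhds_iff_ball.1 ((h.oU.eventually_mem hq).and
    (hρc.eventually (gt_mem_nhds (show rho X (z₀, t₀) < 2 by rw [hρ]; norm_num))))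
  obtain ⟨δ₂, hδ₂, H2⟩ := Metric.eventually_nhds_iff_ball.1 (h.oW.eventually_mem hW)
  set δ := min δ₁ δ₂ with hδd
  have hδ : 0 < δ := lt_min hδ₁ hδ₂
  have hτc : Tendsto τ (𝓝[>] 0) (𝓝 t₀) := h0 ▸ hτ.continuousAt.tendsto.mono_left nhdsWithin_le_nhds
  have hev : ∀ᶠ r in 𝓝[>] (0 : ℝ), 0 < r ∧ τ r ∈ Metric.ball t₀ δ :=
    eventually_mem_nhdsWithin.and (hτc.eventually (Metric.ball_mem_nhds _ hδ))
  have K1 : ∀ z ∈ Metric.ball z₀ δ, ∀ t ∈ Metric.ball t₀ δ, (z, t) ∈ U ∧ rho X (z, t) < 2 :=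
    fun z hz t ht => H1 _ (by
      rw [← ball_prod_same]
      exact ⟨Metric.ball_subset_ball (min_le_left _ _) hz,
        Metric.ball_subset_ball (min_le_left _ _) ht⟩)
  have K2 : ∀ x ∈ Metric.ball y δ, ∀ t ∈ Metric.ball t₀ δ, (x, t) ∈ W :=
    fun z hz t ht => H2 _ (by
      rw [← ball_prod_same]
      exact ⟨Metric.ball_subset_ball (min_le_right _ _) hz,
        Metric.ball_subset_ball (min_le_right _ _) ht⟩)
  let A : Set E := L ⁻¹' Metric.ball z₀ δ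
  have hAo : IsOpen A := Metric.isOpen_ball.preimage L.continuous
  let B : ℝ → Set E2 := fun r => (fun w => z₀ + r • w) ⁻¹' Metric.ball z₀ δ
  have hBo : ∀ r, IsOpen (B r) := fun r => Metric.isOpen_ball.preimage (by fun_prop)
  let k : ℝ → E2 → ℝ := fun r => (B r).indicator fun w => rho X (z₀ + r • w, τ r) *
    ((4 * Real.pi)⁻¹ * Real.exp (-‖r⁻¹ • (X (z₀ + r • w, τ r) - y)‖ ^ 2 / 4))
  -- the main part
  have M1 : ∀ᶠ r in 𝓝[>] (0 : ℝ),
      ∫ w, k r w = ∫ x in {x | (x, τ r) ∈ W} ∩ A, gau y (r ^ 2) x ∂F.mu (τ r) := by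
    filter_upwards [hev] with r ⟨hr, ht⟩
    rw [← setIntegral_indicator hAo.measurableSet, h.int,
      ← integral_indicator (h.oUt _).measurableSet]
    let G : E2 → ℝ := (Metric.ball z₀ δ).indicator fun z =>
      rho X (z, τ r) * gau y (r ^ 2) (X (z, τ r))
    have e1 : {z | (z, τ r) ∈ U}.indicator
        (fun z => rho X (z, τ r) * A.indicator (gau y (r ^ 2)) (X (z, τ r))) = G := by
      ext z
      by_cases hz : z ∈ Metric.ball z₀ δ
      · have hU := (K1 z hz _ ht).1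
        have : X (z, τ r) ∈ A := by
          change L _ ∈ Metric.ball z₀ δ
          rw [h.left _ hU]; exact hz
        simp only [G]
        rw [indicator_of_mem hz, indicator_of_mem (show z ∈ {z | (z, τ r) ∈ U} from hU),
          indicator_of_mem this]
      · simp only [G]
        rw [indicator_of_notMem hz]
        by_cases hU : z ∈ {z | (z, τ r) ∈ U}
        · have : X (z, τ r) ∉ A := by
            change L (X (z, τ r)) ∉ Metric.ball z₀ δ
            rw [h.left _ hU]; exact hz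
          rw [indicator_of_mem hU, indicator_of_notMem this, mul_zero]
        · exact indicator_of_notMem hU _
    have e2 : k r = fun w => r ^ 2 * G (z₀ + r • w) := by
      ext w
      simp only [k, G]
      by_cases hw : w ∈ B r
      · rw [indicator_of_mem hw, indicator_of_mem (show z₀ + r • w ∈ _ from hw), ← gau_scale y _ hr]
        ring
      · rw [indicator_of_notMem hw, indicator_of_notMem (show z₀ + r • w ∉ _ from hw), mul_zero]
    rw [e1, e2, integral_const_mul,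
      Measure.integral_comp_smul (μ := volume) (fun w => G (z₀ + w)) r, integral_add_left_eq_self,
      finrank_euclideanSpace_fin, abs_of_pos (by positivity), smul_eq_mul, ← mul_assoc,
      mul_inv_cancel₀ (by positivity), one_mul]
  have M2 : Tendsto (fun r => ∫ w, k r w) (𝓝[>] 0) (𝓝 1) := by
    rw [← plane_int]
    refine tendsto_integral_filter_of_dominated_convergence
      (fun w => 2 * ((4 * Real.pi)⁻¹ * Real.exp (-‖w‖ ^ 2 / 4))) ?_ ?_ (plane_intg.const_mul 2)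
      (Eventually.of_forall fun w => ?_)
    · filter_upwards [hev] with r ⟨hr, ht⟩
      rw [aestronglyMeasurable_indicator_iff (hBo r).measurableSet]
      refine ContinuousOn.aestronglyMeasurable ?_ (hBo r).measurableSet
      have hc : ContinuousOn (fun w : E2 => (z₀ + r • w, τ r)) (B r) := by fun_prop
      have hm : MapsTo (fun w : E2 => (z₀ + r • w, τ r)) (B r) U := fun w hw => (K1 _ hw _ ht).1
      have c1 := h.smRho.continuousOn.comp hc hm
      have c2 : ContinuousOn (fun w : E2 => X (z₀ + r • w, τ r)) (B r) :=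
        h.sm.continuousOn.comp hc hm
      exact c1.mul ((by fun_prop : Continuous fun v : E =>
        (4 * Real.pi)⁻¹ * Real.exp (-‖v‖ ^ 2 / 4)).comp_continuousOn
        ((c2.sub continuousOn_const).const_smul r⁻¹))
    · filter_upwards [hev] with r ⟨hr, ht⟩
      refine Eventually.of_forall fun w => ?_
      simp only [k]
      by_cases hw : w ∈ B r
      · obtain ⟨hU, h2⟩ := K1 _ hw _ ht
        have h3 := h.rho_pos hU
        rw [indicator_of_mem hw, Real.norm_eq_abs, abs_of_pos (by positivity)]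
        have h4 : ‖w‖ ≤ ‖r⁻¹ • (X (z₀ + r • w, τ r) - y)‖ := by
          refine le_trans (le_of_eq ?_) (hLn _)
          rw [map_smul, map_sub, h.left _ hU, ← hz₀, add_sub_cancel_left, smul_smul,
            inv_mul_cancel₀ hr.ne', one_smul]
        gcongr
      · rw [indicator_of_notMem hw, norm_zero]; positivity
    · have d1 : HasDerivAt (fun r : ℝ => (z₀ + r • w, τ r)) (w, 0) 0 := by
        have := ((hasDerivAt_id (0 : ℝ)).smul_const w).const_add z₀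
        rw [one_smul] at this
        exact this.prodMk hτ
      have e0 : (z₀ + (0 : ℝ) • w, τ 0) = (z₀, t₀) := by rw [h0]; simp
      have d2 : HasDerivAt (fun r : ℝ => X (z₀ + r • w, τ r)) (Li w) 0 := by
        have := (h.hasX hq).comp_hasDerivAt_of_eq 0 d1 e0.symm
        rw [← Jz_apply, hJ] at this
        exact this
      have d3 := d2.tendsto_slope_zero_right
      simp only [zero_add, e0, hX] at d3
      have d4 : Tendsto (fun r : ℝ => (z₀ + r • w, τ r)) (𝓝[>] 0) (𝓝 (z₀, t₀)) :=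
        e0 ▸ d1.continuousAt.tendsto.mono_left nhdsWithin_le_nhds
      have d5 := (hρc.tendsto.comp d4).mul
        (((by fun_prop : Continuous fun v : E =>
          (4 * Real.pi)⁻¹ * Real.exp (-‖v‖ ^ 2 / 4)).tendsto _).comp d3)
      rw [hρ, one_mul, Li.norm_map] at d5
      refine d5.congr' ?_
      filter_upwards [((continuous_fst.tendsto _).comp d4).eventually (Metric.ball_mem_nhds _ hδ)]
        with r hr
      simp only [k]
      rw [indicator_of_mem (show w ∈ B r from hr)]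
      rfl
  -- the tail
  have hΛ : 0 ≤ max Λ 0 := le_max_right _ _
  have T1 : Tendsto (fun r : ℝ => C0 * max Λ 0 * Real.exp (-(δ * r⁻¹) ^ 2 / 8)) (𝓝[>] 0)
      (𝓝 0) := by
    suffices H : Tendsto (fun r : ℝ => Real.exp (-(δ * r⁻¹) ^ 2 / 8)) (𝓝[>] 0) (𝓝 0) by
      simpa using H.const_mul (C0 * max Λ 0)
    refine Real.tendsto_exp_atBot.comp ?_
    refine Tendsto.atBot_div_const (by norm_num) ?_
    exact tendsto_neg_atTop_atBot.comp ((tendsto_pow_atTop two_ne_zero).comp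
      (tendsto_inv_nhdsGT_zero.const_mul_atTop hδ))
  have T2 : Tendsto (fun r => ∫ x in ({x | (x, τ r) ∈ W} ∩ A)ᶜ, gau y (r ^ 2) x ∂F.mu (τ r))
      (𝓝[>] 0) (𝓝 0) := by
    refine squeeze_zero' ?_ ?_ T1
    · filter_upwards [hev] with r ⟨hr, _⟩
      exact integral_nonneg fun x => (gau_pos y (by positivity) x).le
    · filter_upwards [hev] with r ⟨hr, ht⟩
      have hr2 : 0 < r ^ 2 := by positivity
      have := tail hΛ (rat_of_AR hA (τ r)) y hr2 (R := δ * r⁻¹) (by positivity)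
      rw [Real.sqrt_sq hr.le, mul_assoc δ, inv_mul_cancel₀ hr.ne', mul_one] at this
      refine le_trans (setIntegral_mono_set (int_gau hΛ (rat_of_AR hA _) y hr2).integrableOn
        (Eventually.of_forall fun x => (gau_pos y hr2 x).le) (LE.le.eventuallyLE ?_))
        this
      refine compl_subset_compl.2 fun x hx => ⟨K2 x hx _ ht, ?_⟩
      change L x ∈ Metric.ball z₀ δ
      rw [Metric.mem_ball, dist_eq_norm, hz₀, ← map_sub]
      exact (hLn _).trans_lt (by rwa [Metric.mem_ball, dist_eq_norm] at hx)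
  have := (M2.congr' M1).add T2
  rw [add_zero] at this
  refine this.congr' ?_
  filter_upwards [hev] with r ⟨hr, _⟩
  exact integral_add_compl ((h.oWt _).inter hAo).measurableSet
    (int_gau hΛ (rat_of_AR hA _) y (by positivity))


end Gau

theorem densS_holds : DensS := fun F I Λ _ hF p hp =>
  Gau.dens hF.mcf.1 hF.ar (y := p.1) (t₀ := p.2) hp (τ := fun r => p.2 - r ^ 2) (by simp)
    (by simpa using (hasDerivAt_pow 2 (0 : ℝ)).const_sub p.2)



end Crest.Agent.N250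

end
end

-- ▼ part N250/T/White1
section

/-!
# Row 250 (helper79): White's local regularity, part 1: rigidity and the top time
-/

set_option autoImplicit false
open MeasureTheory Set Filter Topology
open scoped ContDiff InnerProductSpace
open Crest.GeometryTopology.MCF

noncomputable section

namespace Crest.Agent.N250.Wh

/-- monotonicity of the Gaussian density ratio in the scale -/
theorem fg_mono (hH : HuiskenS) {F : Mv} {I : Set ℝ} {Λ : ℝ} (hI : IsOpen I) (hF : Fl F I Λ)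
    (Y : ST) {r s : ℝ} (hr : 0 < r) (hrs : r ≤ s) (hs : Icc (Y.2 - s ^ 2) (Y.2 - r ^ 2) ⊆ I) :
    F.Fg Y r ≤ F.Fg Y s := by
  have h2 : r ^ 2 ≤ s ^ 2 := pow_le_pow_left₀ hr.le hrs 2
  have h0 : 0 < r ^ 2 := by positivity
  have := (hH F I Λ hI hF Y (Y.2 - s ^ 2) (Y.2 - r ^ 2) (by linarith) (by linarith) hs).1
  simpa [Mv.Fg] using this

theorem reach_iff {F : Mv} {p : ST} (hn : ‖F.n p‖ = 1) {ρ : ℝ} (hρ : 0 ≤ ρ) :
    F.Reach p ρ ↔ ∀ y ∈ F.sl p.2, 2 * ρ * |⟪y - p.1, F.n p⟫_ℝ| ≤ ‖y - p.1‖ ^ 2 := by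
  refine forall₂_congr fun y _ => ?_
  have e1 : dist y (p.1 + ρ • F.n p) ^ 2 =
      ‖y - p.1‖ ^ 2 - 2 * ρ * ⟪y - p.1, F.n p⟫_ℝ + ρ ^ 2 := by
    rw [dist_eq_norm, ← sub_sub, norm_sub_sq_real, inner_smul_right, norm_smul, hn,
      Real.norm_of_nonneg hρ]; ring
  have e2 : dist y (p.1 - ρ • F.n p) ^ 2 =
      ‖y - p.1‖ ^ 2 + 2 * ρ * ⟪y - p.1, F.n p⟫_ℝ + ρ ^ 2 := by
    rw [dist_eq_norm, show y - (p.1 - ρ • F.n p) = y - p.1 + ρ • F.n p by abel, norm_add_sq_real,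
      inner_smul_right, norm_smul, hn, Real.norm_of_nonneg hρ]; ring
  rw [← pow_le_pow_iff_left₀ hρ dist_nonneg two_ne_zero,
    ← pow_le_pow_iff_left₀ hρ dist_nonneg two_ne_zero, e1, e2,
    ← abs_of_nonneg (show 0 ≤ 2 * ρ by positivity), ← abs_mul, abs_le,
    abs_of_nonneg (show 0 ≤ 2 * ρ by positivity)]
  constructor
  · rintro ⟨a, b⟩; constructor <;> linarith
  · rintro ⟨a, b⟩; constructor <;> linarith

/-- ancient flows with Gaussian density ratios at most one are planes -/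
theorem rigid (hH : HuiskenS) (hD : DensS) {F : Mv} {Λ : ℝ} (hF : Fl F (Iio 0) Λ)
    (h1 : ∀ Y ∈ F.M, ∀ R, 0 < R → F.Fg Y R ≤ 1) {p : ST} (hp : p ∈ F.M) {ρ : ℝ} (hρ : 0 ≤ ρ) :
    F.Reach p ρ := by
  have hsub : ∀ Y ∈ F.M, ∀ a b : ℝ, b ≤ Y.2 → Icc a b ⊆ Iio 0 := fun Y hY a b hb t ht =>
    lt_of_le_of_lt (ht.2.trans hb) (hF.time Y hY)
  have h2 : ∀ Y ∈ F.M, ∀ R, 0 < R → 1 ≤ F.Fg Y R := fun Y hY R hR => by
    refine le_of_tendsto (hD F _ Λ isOpen_Iio hF Y hY) ?_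
    filter_upwards [Ioo_mem_nhdsGT hR] with r hr
    exact fg_mono hH isOpen_Iio hF Y hr.1 hr.2.le (hsub Y hY _ _ (by nlinarith [sq_nonneg r]))
  have h3 : ∀ Y ∈ F.M, p.2 < Y.2 → F.dev Y p = 0 := fun Y hY ht => by
    have hd : 0 < Y.2 - p.2 := sub_pos.2 ht
    have e : ∀ s, 0 < s → F.Fs (Y.2 - s) Y.1 (Y.2 - (Y.2 - s)) = 1 := fun s hs => by
      have a := h1 Y hY _ (Real.sqrt_pos.2 hs)
      have b := h2 Y hY _ (Real.sqrt_pos.2 hs)
      rw [Mv.Fg, Real.sq_sqrt hs.le] at a b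
      rw [sub_sub_cancel]
      exact le_antisymm a b
    exact dev_eq_zero hH isOpen_Iio hF (X := Y) (t₁ := Y.2 - 2 * (Y.2 - p.2))
      (t₂ := Y.2 - (Y.2 - p.2) / 2) (by linarith) (hsub Y hY _ _ (by linarith))
      (by rw [e _ (by positivity), e _ (by positivity)]) hp ⟨by linarith, by linarith⟩
  rw [reach_iff (Tr.n_unit hF.mcf.1 hp) hρ]
  intro y hy
  obtain ⟨π, hπ⟩ := MP.exists_ret hF.mcf.1 (p := (y, p.2)) hy
  have c1 : Tendsto (fun s : ℝ => ((y, s) : ST)) (𝓝[>] p.2) (𝓝 (y, p.2)) :=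
    ((Continuous.prodMk_right y).tendsto p.2).mono_left nhdsWithin_le_nhds
  have c2 : Tendsto (fun s : ℝ => (π (y, s)).1) (𝓝[>] p.2) (𝓝 y) := by
    have := (continuous_fst.tendsto _).comp (hπ.sm.continuousAt.tendsto.comp c1)
    rwa [hπ.fix] at this
  have c3 : Tendsto (fun s : ℝ => ⟪p.1 - (π (y, s)).1, F.n p⟫_ℝ) (𝓝[>] p.2)
      (𝓝 ⟪p.1 - y, F.n p⟫_ℝ) := (tendsto_const_nhds.sub c2).inner tendsto_const_nhds
  have c4 : Tendsto (fun s : ℝ => F.H p * (2 * (s - p.2))) (𝓝[>] p.2)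
      (𝓝 (F.H p * (2 * (p.2 - p.2)))) :=
    (Continuous.tendsto (by fun_prop) _).mono_left nhdsWithin_le_nhds
  have c5 : ⟪p.1 - y, F.n p⟫_ℝ = 0 := by
    rw [sub_self, mul_zero, mul_zero] at c4
    refine tendsto_nhds_unique (c3.congr' ?_) c4
    filter_upwards [c1.eventually hπ.ev, self_mem_nhdsWithin] with s hs hs'
    have h4 := h3 _ hs.1 (by rw [hs.2.1]; exact hs')
    have h5 : 0 < s - p.2 := sub_pos.2 hs'
    simp only [Mv.dev, Mv.xn, hs.2.1] at h4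
    rw [sub_eq_zero.1 h4]
    field_simp
  rw [← neg_sub, inner_neg_left, c5]
  simp

/-- mean value inequality on a symmetric interval -/
theorem mv {f f' : ℝ → ℝ} {s C : ℝ} (h : ∀ x, |x| ≤ |s| → HasDerivAt f (f' x) x)
    (hC : ∀ x, |x| ≤ |s| → |f' x| ≤ C) : |f s - f 0| ≤ C * |s| := by
  have := (convex_Icc (-|s|) |s|).norm_image_sub_le_of_norm_hasDerivWithin_le (f := f) (f' := f')
    (C := C) (x := 0) (y := s) (fun x hx => (h x (abs_le.2 hx)).hasDerivWithinAt)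
    (fun x hx => hC x (abs_le.2 hx)) ⟨by simp, abs_nonneg _⟩ (abs_le.1 le_rfl)
  simpa using this

/-- second order Taylor expansion -/
theorem taylor {g g1 g2 g3 : ℝ → ℝ} {c K : ℝ} (h1 : ∀ x, |x| < c → HasDerivAt g (g1 x) x)
    (h2 : ∀ x, |x| < c → HasDerivAt g1 (g2 x) x) (h3 : ∀ x, |x| < c → HasDerivAt g2 (g3 x) x)
    (hK : ∀ x, |x| < c → |g3 x| ≤ K) (e0 : g 0 = 0) (e1 : g1 0 = 0) {s : ℝ} (hs : |s| < c) :
    |g s - g2 0 * s ^ 2 / 2| ≤ K * |s| ^ 3 := by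
  have hK0 : 0 ≤ K := (abs_nonneg _).trans (hK s hs)
  have a2 : ∀ x, |x| ≤ |s| → |g2 x - g2 0| ≤ K * |s| := fun x hx =>
    (mv (fun y hy => h3 y (by linarith)) fun y hy => hK y (by linarith)).trans (by gcongr)
  have a1 : ∀ x, |x| ≤ |s| → |g1 x - g2 0 * x| ≤ K * |s| * |s| := fun x hx => by
    have := mv (f := fun y => g1 y - g2 0 * y) (f' := fun y => g2 y - g2 0) (s := x) (C := K * |s|)
      (fun y hy => ((h2 y (by linarith)).fun_sub ((hasDerivAt_id' y).const_mul (g2 0))).congr_deriv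
        (by ring))
      fun y hy => a2 y (by linarith)
    simp only [e1, mul_zero, sub_zero] at this
    exact this.trans (by gcongr)
  have := mv (f := fun y => g y - g2 0 * y ^ 2 / 2) (f' := fun y => g1 y - g2 0 * y) (s := s)
    (C := K * |s| * |s|) (fun y hy => ((h1 y (by linarith)).fun_sub
      (((hasDerivAt_pow 2 y).const_mul (g2 0)).div_const 2)).congr_deriv (by norm_num; ring)) a1
  simp only [e0, ne_eq, OfNat.ofNat_ne_zero, not_false_eq_true, zero_pow, mul_zero, zero_div,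
    sub_zero] at this
  exact this.trans (le_of_eq (by ring))

theorem line_deriv {u : ST → ℝ} {X w : ST} {s : ℝ} (hu : ContDiffAt ℝ ∞ u (X + s • w)) (k : ℕ) :
    HasDerivAt (fun x : ℝ => iteratedFDeriv ℝ k u (X + x • w) fun _ => w)
      (iteratedFDeriv ℝ (k + 1) u (X + s • w) fun _ => w) s := by
  have h1 : DifferentiableAt ℝ (iteratedFDeriv ℝ k u) (X + s • w) :=
    (hu.iteratedFDeriv_right (m := 1) (i := k) (by exact_mod_cast le_top)).differentiableAt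
      (by simp)
  have h2 : HasDerivAt (fun x : ℝ => X + x • w) w s := by
    simpa using ((hasDerivAt_id s).smul_const w).const_add X
  have h3 := h1.hasFDerivAt.comp_hasDerivAt s h2
  have h4 := (ContinuousMultilinearMap.apply ℝ (fun _ : Fin k => ST) ℝ
    (fun _ => w)).hasFDerivAt.comp_hasDerivAt s h3
  rw [iteratedFDeriv_succ_apply_left]
  exact h4

theorem num1 {a b K r : ℝ} (h1 : |a - b * r ^ 2 / 2| ≤ K * r ^ 3) (h2 : |b| ≤ 1 / 4)
    (h3 : K * r ≤ 1 / 32) : |a| ≤ r ^ 2 / 4 := by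
  have a7 : K * r ^ 3 ≤ r ^ 2 / 32 := by
    nlinarith [mul_le_mul_of_nonneg_right h3 (sq_nonneg r)]
  have := abs_le.1 h1
  have := abs_le.1 h2
  rw [abs_le]
  constructor <;> nlinarith [sq_nonneg r]

set_option maxHeartbeats 800000 in
/-- the numerical part of the top time argument -/
theorem slab {n m x : E} {S : Set E} {u : E → ℝ} {c K s : ℝ} (hn : ‖n‖ = 1) (hm : ‖m‖ = 1)
    (hK : 1 ≤ K) (hs : 0 < s) (hsc : 2 * s < c) (hsK : K * s ≤ 1 / 32)
    (hS : ∀ y, ‖y - x‖ < c → (y ∈ S ↔ ⟪y - x, n⟫_ℝ = u y)) (hu : ∀ y (r : ℝ), u (y + r • n) = u y)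
    (hx : u x = 0)
    (hT : ∀ v, ‖v‖ = 1 → ⟪v, n⟫_ℝ = 0 → ∃ b, |b| ≤ K ∧
      ∀ r, |r| < c → |u (x + r • v) - b * r ^ 2 / 2| ≤ K * |r| ^ 3)
    (hη : ∀ y ∈ S, ‖y - x‖ < 4 → |⟪y - x, m⟫_ℝ| ≤ s ^ 2 / 64) :
    ∀ y ∈ S, 4 * |⟪y - x, n⟫_ℝ| ≤ ‖y - x‖ ^ 2 := by
  have hnn : ⟪n, n⟫_ℝ = 1 := by rw [real_inner_self_eq_norm_sq, hn]; norm_num
  have hs1 : s ≤ 1 / 32 := by nlinarith
  have hs3 : K * s ^ 3 ≤ s ^ 2 / 32 := by nlinarith [mul_le_mul_of_nonneg_right hsK (sq_nonneg s)]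
  have hs2 : K * s ^ 2 ≤ s / 32 := by nlinarith [mul_le_mul_of_nonneg_right hsK hs.le]
  -- the two points over `x ± s v`
  have h1 : ∀ v, ‖v‖ = 1 → ⟪v, n⟫_ℝ = 0 → ∃ b, |⟪v, m⟫_ℝ| ≤ s / 16 ∧
      |b| * |⟪n, m⟫_ℝ| ≤ 1 / 8 ∧ ∀ r, |r| < c → |u (x + r • v) - b * r ^ 2 / 2| ≤ K * |r| ^ 3 := by
    intro v hv hvn
    obtain ⟨b, hb, hT⟩ := hT v hv hvn
    have h2 : ∀ r, |r| = s → |r * ⟪v, m⟫_ℝ + u (x + r • v) * ⟪n, m⟫_ℝ| ≤ s ^ 2 / 64 := by
      intro r hr
      have a1 := hT r (by linarith)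
      have a0 : r ^ 2 = s ^ 2 := by rw [← hr, sq_abs]
      rw [hr, a0] at a1
      have a2 : |u (x + r • v)| ≤ s / 2 := by
        have := abs_le.1 a1
        have := abs_le.1 hb
        rw [abs_le]
        constructor <;> nlinarith [sq_nonneg s]
      have a3 : ‖x + r • v + u (x + r • v) • n - x‖ ≤ s + s / 2 := by
        rw [add_assoc, add_sub_cancel_left]
        refine (norm_add_le _ _).trans ?_
        rw [norm_smul, norm_smul, hv, hn, Real.norm_eq_abs, Real.norm_eq_abs]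
        linarith
      have a4 := hη _ ((hS (x + r • v + u (x + r • v) • n) (by linarith)).2 (by
        rw [hu, add_assoc, add_sub_cancel_left, inner_add_left, real_inner_smul_left,
          real_inner_smul_left, hvn, hnn]; ring)) (by linarith)
      rwa [add_assoc, add_sub_cancel_left, inner_add_left, real_inner_smul_left,
        real_inner_smul_left] at a4
    have a1 := abs_le.1 (h2 s (abs_of_pos hs))
    have a2 := abs_le.1 (h2 (-s) (by rw [abs_neg, abs_of_pos hs]))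
    have a3 := hT s (by rw [abs_of_pos hs]; linarith)
    have a4 := hT (-s) (by rw [abs_neg, abs_of_pos hs]; linarith)
    rw [abs_neg, neg_sq] at a4
    rw [abs_of_pos hs] at a3 a4
    have a5 : |⟪n, m⟫_ℝ| ≤ 1 := by simpa [hn, hm] using abs_real_inner_le_norm n m
    set q := ⟪n, m⟫_ℝ
    set w := ⟪v, m⟫_ℝ
    have a6 : |(u (x + s • v) - b * s ^ 2 / 2) * q| ≤ s ^ 2 / 32 := by
      rw [abs_mul]; exact (mul_le_of_le_one_right (abs_nonneg _) a5).trans (a3.trans hs3)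
    have a7 : |(u (x + (-s) • v) - b * s ^ 2 / 2) * q| ≤ s ^ 2 / 32 := by
      rw [abs_mul]; exact (mul_le_of_le_one_right (abs_nonneg _) a5).trans (a4.trans hs3)
    rw [abs_le] at a6 a7
    refine ⟨b, ?_, ?_, hT⟩
    · have : |s * w| ≤ s * (s / 16) := by rw [abs_le]; constructor <;> nlinarith
      rw [abs_mul, abs_of_pos hs] at this
      exact le_of_mul_le_mul_left this hs
    · have : |s ^ 2 * (b * q)| ≤ s ^ 2 * (1 / 8) := by rw [abs_le]; constructor <;> nlinarith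
      rw [abs_mul, abs_of_pos (by positivity), abs_mul] at this
      exact le_of_mul_le_mul_left this (by positivity)
  -- decomposition of a vector
  have h3 : ∀ z : E, z = ⟪z, n⟫_ℝ • n ∨ ∃ (v : E) (r : ℝ), ‖v‖ = 1 ∧ ⟪v, n⟫_ℝ = 0 ∧ 0 < r ∧
      z = r • v + ⟪z, n⟫_ℝ • n ∧ r ^ 2 + ⟪z, n⟫_ℝ ^ 2 = ‖z‖ ^ 2 := by
    intro z
    by_cases h0 : z - ⟪z, n⟫_ℝ • n = 0
    · exact Or.inl (sub_eq_zero.1 h0)
    have hr := norm_pos_iff.2 h0
    refine Or.inr ⟨‖z - ⟪z, n⟫_ℝ • n‖⁻¹ • (z - ⟪z, n⟫_ℝ • n), _, ?_, ?_, hr, ?_, ?_⟩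
    · rw [norm_smul, norm_inv, norm_norm, inv_mul_cancel₀ hr.ne']
    · rw [real_inner_smul_left, inner_sub_left, real_inner_smul_left, hnn]; ring
    · rw [smul_smul, mul_inv_cancel₀ hr.ne', one_smul, sub_add_cancel]
    · rw [norm_sub_sq_real, inner_smul_right, norm_smul, hn, Real.norm_eq_abs, mul_one, sq_abs]
      ring
  have h4 : 1 / 2 ≤ |⟪n, m⟫_ℝ| := by
    have a1 : 1 / 4 ≤ ⟪m, n⟫_ℝ ^ 2 := by
      rcases h3 m with h | ⟨v, r, hv, hvn, hr, e1, e2⟩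
      · have := congrArg (fun z => ‖z‖ ^ 2) h
        simp only [norm_smul, hn, hm, Real.norm_eq_abs, mul_one, sq_abs] at this
        linarith
      · obtain ⟨-, a, -⟩ := h1 v hv hvn
        have e3 : ⟪v, m⟫_ℝ = r := by
          rw [e1, inner_add_right, inner_smul_right, inner_smul_right, hvn,
            real_inner_self_eq_norm_sq, hv]; ring
        rw [e3, abs_of_pos hr] at a
        rw [hm] at e2
        nlinarith
    rw [real_inner_comm, ← sq_abs] at a1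
    nlinarith [abs_nonneg ⟪n, m⟫_ℝ]
  intro y hy
  set z := y - x with hz
  have hz0 := norm_nonneg z
  by_cases f1 : 4 ≤ ‖z‖
  · have : |⟪z, n⟫_ℝ| ≤ ‖z‖ := by simpa [hn] using abs_real_inner_le_norm z n
    nlinarith
  have a1 := hη y hy (not_le.1 f1)
  rw [← hz] at a1
  by_cases f2 : s ≤ ‖z‖
  · have a2 : |⟪z, n⟫_ℝ| * |⟪n, m⟫_ℝ| ≤ s ^ 2 / 64 + ‖z‖ * (s / 16) := by
      rw [← abs_mul]
      rcases h3 z with h | ⟨v, r, hv, hvn, hr, e1, e2⟩
      · rw [h, real_inner_smul_left] at a1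
        exact a1.trans (le_add_of_nonneg_right (by positivity))
      · obtain ⟨-, a, -⟩ := h1 v hv hvn
        have e3 : ⟪z, n⟫_ℝ * ⟪n, m⟫_ℝ = ⟪z, m⟫_ℝ - r * ⟪v, m⟫_ℝ := by
          conv_rhs => rw [e1, inner_add_left, real_inner_smul_left, real_inner_smul_left]
          ring
        have e4 : r ≤ ‖z‖ := le_of_sq_le_sq (by linarith [sq_nonneg ⟪z, n⟫_ℝ]) hz0
        rw [e3]
        refine (abs_sub _ _).trans (add_le_add a1 ?_)
        rw [abs_mul, abs_of_pos hr]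
        gcongr
    nlinarith [abs_nonneg ⟪z, n⟫_ℝ]
  have a2 := (hS y (by rw [← hz]; linarith)).1 hy
  rw [← hz] at a2
  have e0 : y = x + z := by rw [hz]; abel
  rcases h3 z with h | ⟨v, r, hv, hvn, hr, e1, e2⟩
  · rw [a2, e0, h, hu, hx, abs_zero, mul_zero]
    positivity
  · obtain ⟨b, -, a3, a4⟩ := h1 v hv hvn
    have e4 : r ≤ ‖z‖ := le_of_sq_le_sq (by linarith [sq_nonneg ⟪z, n⟫_ℝ]) hz0
    have a5 := a4 r (by rw [abs_of_pos hr]; linarith)
    rw [abs_of_pos hr] at a5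
    have e5 : u y = u (x + r • v) := by rw [e0, e1, ← add_assoc, hu]
    have a6 : |b| ≤ 1 / 4 := by linarith [mul_le_mul_of_nonneg_left h4 (abs_nonneg b)]
    have a8 := num1 a5 a6
      ((mul_le_mul_of_nonneg_left (e4.trans (not_le.1 f2).le) (by linarith)).trans hsK)
    have a9 := sq_nonneg ⟪z, n⟫_ℝ
    rw [← e5, ← a2] at a8
    linarith

/-- the top time: a sheet of bounded geometry inside a thin slab -/
theorem top (hS : SheetS) : ∃ η, 0 < η ∧ ∀ (F : Mv) (X : ST) (m : E), F.IsMCF → X ∈ F.M →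
    F.Proper (PC X 1) → (∀ p ∈ F.M ∩ PC X 1, F.Reach p 1) → ‖m‖ = 1 →
    (∀ y ∈ F.sl X.2, ‖y - X.1‖ < 4 → |⟪y - X.1, m⟫_ℝ| ≤ η) → F.Reach X 2 := by
  obtain ⟨c, C, hc, hS⟩ := hS
  set K : ℝ := 1 + |C 2| + |C 3| with hK
  have hK1 : 1 ≤ K := by linarith [abs_nonneg (C 2), abs_nonneg (C 3)]
  set s : ℝ := min (c / 4) (1 / (32 * K)) with hs
  have hs0 : 0 < s := lt_min (by positivity) (by positivity)
  refine ⟨s ^ 2 / 64, by positivity, fun F X m hF hX hP hR hm hη => ?_⟩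
  obtain ⟨W, u, hW, hL, hinv, -, hj⟩ := hS F X hF hX hP hR
  have hn := Tr.n_unit hF.1 hX
  have hPC : ∀ y, ‖y - X.1‖ < c → ((y, X.2) : ST) ∈ PC X c := fun y hy =>
    ⟨mem_ball_iff_norm.2 hy, sub_lt_self _ (by positivity), le_rfl⟩
  have hXW : X ∈ W := hW (hPC X.1 (by simpa using hc))
  have hu : ∀ p ∈ W, ContDiffAt ℝ ∞ u p := fun p hp => by
    have h1 : ContDiffAt ℝ ∞ (fun p : ST => ⟪p.1 - X.1, F.n X⟫_ℝ) p :=
      (contDiffAt_fst.sub contDiffAt_const).inner ℝ contDiffAt_const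
    simpa using h1.sub (Tr.loc_at hL hp)
  have hu0 : u X = 0 := by simpa using (hL.mem X hXW).1 hX
  rw [reach_iff hn zero_le_two, show (2 : ℝ) * 2 = 4 by norm_num]
  refine slab (u := fun y => u (y, X.2)) (c := c) hn hm hK1 hs0 (by linarith [min_le_left (c / 4) (1 / (32 * K))])
    ((mul_le_mul_of_nonneg_left (min_le_right _ _) (by linarith)).trans (le_of_eq (by field_simp)))
    (fun y hy => (hL.mem _ (hW (hPC y hy))).trans sub_eq_zero) (fun y r => hinv (y, X.2) r) hu0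
    (fun v hv hvn => ?_) hη
  set w : ST := (v, 0) with hw
  have hw1 : ‖w‖ = 1 := by simp [hw, hv]
  have e : ∀ r : ℝ, X + r • w = (X.1 + r • v, X.2) := fun r => by ext <;> simp [hw]
  have hm : ∀ r : ℝ, |r| < c → X + r • w ∈ PC X c := fun r hr => by
    rw [e]; exact hPC _ (by simpa [norm_smul, hv] using hr)
  have hb : ∀ (k : ℕ) (r : ℝ), |r| < c →
      |iteratedFDeriv ℝ k u (X + r • w) fun _ => w| ≤ |C k| := fun k r hr => by
    have := (iteratedFDeriv ℝ k u (X + r • w)).le_opNorm fun _ => w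
    simp only [hw1, Finset.prod_const_one, mul_one, Real.norm_eq_abs] at this
    exact this.trans ((hj k _ (hm r hr)).trans (le_abs_self _))
  have hd := fun (k : ℕ) (r : ℝ) (hr : |r| < c) => line_deriv (hu _ (hW (hm r hr))) k
  have h0 : |(0 : ℝ)| < c := by simpa using hc
  refine ⟨_, (hb 2 0 h0).trans (by linarith [abs_nonneg (C 3)]), fun r hr => ?_⟩
  have := taylor (K := K) (hd 0) (hd 1) (hd 2)
    (fun r hr => (hb 3 r hr).trans (by linarith [abs_nonneg (C 2)])) (by simpa using hu0) ?_ hr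
  · simpa only [iteratedFDeriv_zero_apply, e] using this
  have h1 : HasFDerivAt (fun p : ST => ⟪p.1 - X.1, F.n X⟫_ℝ)
      ((innerSL ℝ (F.n X)).comp (ContinuousLinearMap.fst ℝ E ℝ)) X := by
    simp only [real_inner_comm (F.n X)]
    exact (innerSL ℝ (F.n X)).hasFDerivAt.comp X (hasFDerivAt_fst.sub_const X.1)
  have h2 := (h1.fun_sub ((hu X hXW).differentiableAt (by simp)).hasFDerivAt).fderiv
  have h3 := MP.loc_fd hL hXW hX w
  rw [h2] at h3
  simpa [hw, real_inner_comm, hvn] using h3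

end Crest.Agent.N250.Wh

end
end

-- ▼ part N250/T/White
section

/-!
# Row 250 (helper79): White's local regularity theorem `WhiteS` from the toolbox
-/

set_option autoImplicit false
open MeasureTheory Set Filter Topology
open scoped ContDiff InnerProductSpace
open Crest.GeometryTopology.MCF

noncomputable section

namespace Crest.Agent.N250.Wh

open Tr

/-- the similarity `(x, t) ↦ (q.1 + σ x, q.2 + σ² t)` -/
def sc (q : ST) (σ : ℝ) : Sim := ⟨q.1, .refl ℝ E, fun _ => σ, fun t => q.2 + σ ^ 2 * t, univ⟩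

/-- the pull-back under `sc` -/
def scM (F : Mv) (q : ST) (σ : ℝ) : Mv :=
  ⟨{p | (sc q σ).map p ∈ F.M}, fun p => F.n ((sc q σ).map p), fun p => σ * F.V ((sc q σ).map p)⟩

theorem sc_map (q : ST) (σ : ℝ) (p : ST) :
    (sc q σ).map p = (q.1 + σ • p.1, q.2 + σ ^ 2 * p.2) := rfl

theorem pull_sc (F : Mv) (q : ST) {σ : ℝ} (h : 0 < σ) : Pull (sc q σ) F (scM F q σ) := by
  refine ⟨⟨isOpen_univ, fun _ _ => h, fun _ _ => contDiffAt_const,
    fun _ _ => contDiffAt_const.add (contDiffAt_const.mul contDiffAt_id)⟩,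
    fun p => by simp [scM, show (sc q σ).U = univ from rfl], fun p _ => rfl, fun p _ => ?_⟩
  have : deriv (sc q σ).θ p.2 = σ ^ 2 * 1 :=
    (((hasDerivAt_id p.2).const_mul _).const_add _).deriv
  rw [this]
  simp only [scM, sc, deriv_const', zero_mul, sub_zero]
  field_simp

theorem fl_sc {F : Mv} {I : Set ℝ} {Λ : ℝ} (hF : Fl F I Λ) (q : ST) {σ : ℝ} (h : 0 < σ) :
    Fl (scM F q σ) {t | q.2 + σ ^ 2 * t ∈ I} Λ := by
  have hp := pull_sc F q h
  refine ⟨⟨hp.reg hF.mcf.1, fun p hM => ?_⟩, fun p hM => hF.time _ (hp.M hM),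
    (hp.proper hF.proper).mono_set fun p hI => ⟨trivial, trivial, hI.2⟩,
    hp.ar (fun _ => Or.inl fun _ => trivial) hF.ar⟩
  rw [hp.H hF.mcf.1 hM]
  change σ * F.V _ = -(σ * _)
  rw [hF.mcf.2 _ (hp.M hM), mul_neg]

theorem fg_sc (F : Mv) (q : ST) {σ : ℝ} (h : 0 < σ) (Y : ST) (R : ℝ) :
    (scM F q σ).Fg Y R = F.Fg ((sc q σ).map Y) (σ * R) := by
  rw [Mv.Fg, Mv.Fg, (pull_sc F q h).Fs fun _ => trivial, mul_pow]
  congr 1
  change q.2 + σ ^ 2 * _ = q.2 + σ ^ 2 * Y.2 - _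
  ring

/-- a normalised counterexample -/
structure Bad (Λ A ε : ℝ) (G : Mv) (I : Set ℝ) : Prop where
  fl : Fl G I Λ
  tm : Ioc (-A ^ 2) 0 ⊆ I
  mem : (0 : ST) ∈ G.M
  bad : ¬ G.Reach 0 2
  reach : ∀ z ∈ G.M ∩ PC 0 A, G.Reach z 1
  dens : ∀ Y ∈ PC 0 A, ∀ R, 0 < R → R ≤ A → G.Fg Y R ≤ 1 + ε

/-- point picking -/
theorem pick (hH : HuiskenS) (hP : ReachPosS) {Λ A ε : ℝ} (hA : 1 ≤ A) {F : Mv} {a b r : ℝ}
    {X p : ST} (hF : Fl F (Ioo a b) Λ) (hr : 0 < r) (ha : a < X.2 - 2 * r ^ 2)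
    (hd : ∀ Y ∈ PC X r, F.Fg Y r ≤ 1 + ε) (hp : p ∈ F.M ∩ PC X (r / 2))
    (hn : ¬ F.Reach p (1 / (2 * A) * r)) : ∃ G I, Bad Λ A ε G I := by
  set s₀ := 1 / (2 * A) * r with hs₀
  have hA0 : 0 < A := by linarith
  have h0 : 0 < s₀ := by positivity
  have hAs : A * s₀ = r / 2 := by rw [hs₀]; field_simp
  obtain ⟨hpM, hp1, hp2, hp3⟩ := hp
  have hpb := (hF.time p hpM).2
  let P : ℝ → ST → Prop := fun s q =>
    dist q.1 p.1 ≤ A * (s₀ - s) ∧ p.2 - A ^ 2 * s₀ * (s₀ - s) ≤ q.2 ∧ q.2 ≤ p.2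
  have hPt : ∀ s q, 0 ≤ s → P s q → p.2 - (r / 2) ^ 2 ≤ q.2 ∧ dist q.1 p.1 ≤ r / 2 :=
    fun s q hs h => by
      have e1 : 0 ≤ A ^ 2 * s₀ * s := by positivity
      have e2 : 0 ≤ A * s := by positivity
      rw [← hAs]
      exact ⟨by linarith [h.2.1], by linarith [h.1]⟩
  obtain ⟨ρ, hρ, hR⟩ := hP F hF.mcf.1 (univ ×ˢ Ioo a b)
    (Metric.closedBall p.1 (r / 2) ×ˢ Icc (p.2 - (r / 2) ^ 2) p.2) (isOpen_univ.prod isOpen_Ioo)
    hF.proper ((isCompact_closedBall _ _).prod isCompact_Icc)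
    (fun q hq => ⟨trivial, by nlinarith [hq.2.1], hq.2.2.trans_lt hpb⟩)
  let Q : ℕ → Prop := fun j => ∃ q ∈ F.M, P (s₀ / 2 ^ j) q ∧ ¬ F.Reach q (s₀ / 2 ^ j)
  have Q0 : Q 0 := ⟨p, hpM, by simp [P], by simpa using hn⟩
  obtain ⟨j, ⟨q, hqM, hq, hqn⟩, hj⟩ : ∃ j, Q j ∧ ¬ Q (j + 1) := by
    by_contra h
    push Not at h
    have hall : ∀ j, Q j := fun j => Nat.rec Q0 h j
    obtain ⟨j, hj⟩ := pow_unbounded_of_one_lt (s₀ / ρ) (one_lt_two (α := ℝ))
    obtain ⟨q, hqM, hq, hqn⟩ := hall j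
    have := hPt _ q (by positivity) hq
    refine hqn ((hR q ⟨hqM, this.2, this.1, hq.2.2⟩).mono_reg hF.mcf.1 hqM ?_)
    rw [div_le_iff₀ (by positivity)]
    rw [div_lt_iff₀ hρ] at hj
    linarith
  set σ := s₀ / 2 ^ (j + 1) with hσ
  have hσ0 : 0 < σ := by positivity
  have e2 : s₀ / 2 ^ j = σ * 2 := by rw [hσ, pow_succ]; field_simp
  have hσ1 : σ * 2 ≤ s₀ := e2 ▸ div_le_self h0.le (one_le_pow₀ one_le_two)
  rw [e2] at hq hqn
  have hpl := pull_sc F q hσ0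
  have hm0 : (sc q σ).map 0 = q := by simp [sc_map]
  have hG0 : (0 : ST) ∈ (scM F q σ).M := (hpl.mem 0).2 ⟨trivial, hm0.symm ▸ hqM⟩
  have hPz : ∀ z ∈ PC 0 A, P σ ((sc q σ).map z) := by
    rintro z ⟨z1, z2, z3⟩
    simp only [Prod.fst_zero, Prod.snd_zero, zero_sub, mem_ball_zero_iff] at z1 z2 z3
    obtain ⟨q1, q2, q3⟩ := hq
    refine ⟨?_, ?_, ?_⟩
    · have : dist (q.1 + σ • z.1) q.1 ≤ σ * A := by
        rw [dist_self_add_left, norm_smul, Real.norm_of_nonneg hσ0.le]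
        gcongr
      have := dist_triangle (q.1 + σ • z.1) q.1 p.1
      change dist (q.1 + σ • z.1) p.1 ≤ _
      linarith
    · change _ ≤ q.2 + σ ^ 2 * z.2
      have e3 : σ ^ 2 * -A ^ 2 ≤ σ ^ 2 * z.2 := by gcongr
      have e4 : A ^ 2 * σ * σ ≤ A ^ 2 * σ * s₀ := by gcongr; linarith
      linarith
    · change q.2 + σ ^ 2 * z.2 ≤ _
      linarith [mul_nonpos_of_nonneg_of_nonpos (sq_nonneg σ) z3]
  refine ⟨scM F q σ, _, fl_sc hF q hσ0, fun t ht => ?_, hG0, fun h => hqn ?_, fun z hz => ?_,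
    fun Y hY R hR0 hRA => ?_⟩
  · have h1 := hPz (0, t) ⟨by simpa using hA0, by simpa using ht⟩
    have h2 := (hPt _ _ hσ0.le h1).1
    exact ⟨lt_of_lt_of_le (by nlinarith) h2, h1.2.2.trans_lt hpb⟩
  · have := hpl.reach_of hG0 (fun _ => trivial) h
    rwa [hm0] at this
  · refine hpl.reach hz.1 ?_
    by_contra h
    exact hj ⟨_, hpl.M hz.1, hPz z hz.2, by simpa only [sc, mul_one] using h⟩
  · have h1 := hPz Y hY
    have h2 := hPt _ _ hσ0.le h1
    have h3 : σ * R ≤ r := by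
      have : σ * R ≤ s₀ * A := by gcongr; linarith
      linarith
    have h4 : 0 < (σ * R) ^ 2 := by positivity
    rw [fg_sc F q hσ0]
    refine (fg_mono hH isOpen_Ioo hF _ (by positivity) h3 fun t ht =>
      ⟨by nlinarith [ht.1], by linarith [ht.2, h1.2.2]⟩).trans (hd _ ⟨?_, by nlinarith, ?_⟩)
    · have := dist_triangle ((sc q σ).map Y).1 p.1 X.1
      rw [Metric.mem_ball] at hp1 ⊢
      linarith [h2.2]
    · exact h1.2.2.trans hp3

theorem mem_PC {A : ℝ} {z : ST} : z ∈ PC 0 A ↔ ‖z.1‖ < A ∧ -A ^ 2 < z.2 ∧ z.2 ≤ 0 := by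
  simp [PC]

theorem mem_PC_ev {l : Filter ℕ} (hl : l ≤ atTop) (a b : ℝ) :
    ∀ᶠ k : ℕ in l, ∀ z : ST, ‖z.1‖ ≤ a → -b ≤ z.2 → z.2 ≤ 0 → z ∈ PC 0 ((k : ℝ) + 2) := by
  have h := tendsto_natCast_atTop_atTop (R := ℝ)
  filter_upwards [hl (h.eventually_ge_atTop a), hl (h.eventually_ge_atTop b)] with k h1 h2 z a1 a2 a3
  have h1 : a ≤ k := h1
  have h2 : b ≤ k := h2
  exact mem_PC.2 ⟨by linarith, by nlinarith [sq_nonneg (k : ℝ), Nat.cast_nonneg (α := ℝ) k], a3⟩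

/-- two balls missed at time `-1` give a slab at time `0` -/
theorem slab_of (hA : AvoidS) {G : Mv} (hG : G.IsMCF) (hP : G.Proper (univ ×ˢ Icc (-1) 0)) {x : E}
    (hx : ((x, -1) : ST) ∈ G.M) {R : ℝ} (hR : 0 < R) (h : G.Reach (x, -1) R) {y : E}
    (hy : y ∈ G.sl 0) : 2 * R * |⟪y - x, G.n (x, -1)⟫_ℝ| ≤ ‖y - x‖ ^ 2 + 4 := by
  have hn := n_unit hG.1 hx
  have a := fun (c : E) (hc : ∀ z ∈ G.sl (-1), R ≤ dist z c) => hA G hG c R (-1) 0 hR.le
    (hP.mono_set (prod_mono (subset_univ _) Subset.rfl)) hc 0 ⟨by norm_num, le_rfl⟩ y hy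
  have a1 := a _ fun z hz => (h z hz).1
  have a2 := a _ fun z hz => (h z hz).2
  rw [dist_eq_norm, ← sub_sub, norm_sub_sq_real, inner_smul_right, norm_smul, hn,
    Real.norm_of_nonneg hR.le] at a1
  rw [dist_eq_norm, show y - (x - R • G.n (x, -1)) = y - x + R • G.n (x, -1) by abel,
    norm_add_sq_real, inner_smul_right, norm_smul, hn, Real.norm_of_nonneg hR.le] at a2
  rw [← abs_of_pos (show 0 < 2 * R by positivity), ← abs_mul, abs_le]
  constructor <;> linarith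

/-- there is no counterexample at large scale with small density excess -/
theorem no_bad (hH : HuiskenS) (hD : DensS) (hA : AvoidS) (hS : SheetS) (hC : CptS)
    (hJ : ConvJetS) (hR : ConvReachS) (hFl : ConvFlS) (Λ : ℝ) :
    ∃ k : ℕ, ∀ G I, ¬ Bad Λ ((k : ℝ) + 2) (1 / ((k : ℝ) + 1)) G I := by
  by_contra hc
  push Not at hc
  choose G I hB using hc
  obtain ⟨η, hη, htop⟩ := top hS
  set l : Ultrafilter ℕ := hyperfilter ℕ
  have hl : (l : Filter ℕ) ≤ atTop := Nat.hyperfilter_le_atTop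
  have hpr : ∀ k, (G k).Proper (univ ×ˢ Ioc (-((k : ℝ) + 2) ^ 2) 0) := fun k =>
    (hB k).fl.proper.mono_set (prod_mono Subset.rfl (hB k).tm)
  have hpc : ∀ k, (G k).Proper (PC 0 ((k : ℝ) + 2)) := fun k =>
    (hpr k).mono_set fun z hz => ⟨trivial, (mem_PC.1 hz).2⟩
  have hp1 : ∀ k, (G k).Proper (univ ×ˢ Icc (-1) 0) := fun k =>
    (hpr k).mono_set (prod_mono Subset.rfl fun t ht =>
      ⟨by nlinarith [ht.1, Nat.cast_nonneg (α := ℝ) k], ht.2⟩)
  obtain ⟨F, hF, hM, hP, hcv⟩ := hC ℕ l G NT Lim.isOpen_NT fun p hp => by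
    refine ⟨Metric.ball p.1 1 ×ˢ Ioo (p.2 - 1) 0, prod_mem_nhds (Metric.ball_mem_nhds _ one_pos)
      (Ioo_mem_nhds (by linarith) hp.2), 1, one_pos, ?_⟩
    filter_upwards [mem_PC_ev hl (‖p.1‖ + 1) (1 - p.2)] with k hk
    have : Metric.ball p.1 1 ×ˢ Ioo (p.2 - 1) 0 ⊆ PC 0 ((k : ℝ) + 2) := fun z hz =>
      hk z (by linarith [norm_sub_norm_le z.1 p.1, mem_ball_iff_norm.1 hz.1])
        (by linarith [hz.2.1]) hz.2.2.le
    exact ⟨(hB k).fl.mcf, (hpc k).mono_set this, fun q hq => (hB k).reach q ⟨hq.1, this hq.2⟩⟩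
  obtain ⟨hfl, -, hFs⟩ := hFl ℕ l G I F (Iio 0) Λ isOpen_Iio (.of_forall fun k => (hB k).fl) hcv
    fun p hp => (hM hp).2
  have h1 : ∀ Y ∈ F.M, ∀ R, 0 < R → F.Fg Y R ≤ 1 := fun Y hY R hR => by
    have hY0 : Y.2 < 0 := (hM hY).2
    have t1 := hFs (fun _ => Y.2 - R ^ 2) (fun _ => Y.1) (fun _ => R ^ 2) _ _ _
      (show Y.2 - R ^ 2 < 0 by nlinarith) (by positivity) tendsto_const_nhds tendsto_const_nhds
      tendsto_const_nhds
    have t2 : Tendsto (fun k : ℕ => 1 + 1 / ((k : ℝ) + 1)) l (𝓝 (1 + 0)) :=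
      (tendsto_one_div_add_atTop_nhds_zero_nat.mono_left hl).const_add 1
    rw [add_zero] at t2
    refine le_of_tendsto_of_tendsto t1 t2 ?_
    filter_upwards [mem_PC_ev hl ‖Y.1‖ (-Y.2),
      hl ((tendsto_natCast_atTop_atTop (R := ℝ)).eventually_ge_atTop R)] with k hk hk2
    have hk2 : R ≤ k := hk2
    exact (hB k).dens Y (hk Y le_rfl (by simp) hY0.le) R hR (by linarith)
  have h2 : ∀ k, ∃ x ∈ Metric.closedBall (0 : E) 3, ((x, -1) : ST) ∈ (G k).M := fun k => by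
    by_contra h
    push Not at h
    have := hA (G k) (hB k).fl.mcf 0 3 (-1) 0 (by norm_num)
      ((hp1 k).mono_set (prod_mono (subset_univ _) Subset.rfl))
      (fun x hx => le_of_not_gt fun h' => h x h'.le hx) 0 ⟨by norm_num, le_rfl⟩ 0 (hB k).mem
    norm_num at this
  choose x hx3 hxM using h2
  obtain ⟨x₀, -, hx₀⟩ := (isCompact_closedBall (0 : E) 3).ultrafilter_le_nhds (l.map x)
    (le_principal_iff.2 (Eventually.of_forall (f := (l : Filter ℕ)) hx3))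
  have t3 : Tendsto (fun k => ((x k, -1) : ST)) l (𝓝 (x₀, -1)) :=
    Tendsto.prodMk_nhds hx₀ tendsto_const_nhds
  have hN : ∀ y : E, ((y, -1) : ST) ∈ NT := fun y => ⟨trivial, by norm_num⟩
  have h3 := ((hJ ℕ l G F NT hcv).1 _ _ (hN x₀) t3 (.of_forall hxM)).1
  have hR0 : 0 < 53 / η := by positivity
  obtain ⟨k, hk⟩ := ((hR ℕ l G F NT Lim.isOpen_NT hcv _ _ (53 / η + 1) (by positivity) t3
    (.of_forall hxM) (by rintro ⟨y, t⟩ ⟨-, rfl⟩; exact hN y)).2
      (rigid hH hD hfl h1 h3 (by positivity)) (53 / η) (by linarith)).exists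
  have hk1 : PC 0 1 ⊆ PC 0 ((k : ℝ) + 2) := fun z hz => by
    rw [mem_PC] at hz ⊢
    exact ⟨by linarith [hz.1, Nat.cast_nonneg (α := ℝ) k],
      by nlinarith [hz.2.1, Nat.cast_nonneg (α := ℝ) k], hz.2.2⟩
  refine (hB k).bad (htop (G k) 0 ((G k).n (x k, -1)) (hB k).fl.mcf (hB k).mem
    ((hpc k).mono_set hk1) (fun p hp => (hB k).reach p ⟨hp.1, hk1 hp.2⟩)
    (n_unit (hB k).fl.mcf.1 (hxM k)) fun y hy hy4 => ?_)
  have b : ∀ z ∈ (G k).sl 0, ‖z‖ < 4 → |⟪z - x k, (G k).n (x k, -1)⟫_ℝ| ≤ η / 2 := fun z hz h4 => by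
    have b1 := slab_of hA (hB k).fl.mcf (hp1 k) (hxM k) hR0 hk hz
    have b2 : ‖z - x k‖ ≤ 7 := by linarith [norm_sub_le z (x k), mem_closedBall_zero_iff.1 (hx3 k)]
    have b3 : ‖z - x k‖ ^ 2 ≤ 7 ^ 2 := by gcongr
    have b4 : 2 * (53 / η) * (η / 2) = 53 := by field_simp
    exact le_of_mul_le_mul_left (by linarith) (show 0 < 2 * (53 / η) by positivity)
  have b1 := b y hy (by simpa using hy4)
  have b2 := b 0 (hB k).mem (by simp)
  rw [Prod.fst_zero, ← sub_sub_sub_cancel_right y 0 (x k), inner_sub_left]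
  linarith [abs_sub ⟪y - x k, (G k).n (x k, -1)⟫_ℝ ⟪0 - x k, (G k).n (x k, -1)⟫_ℝ]

end Wh

/-- White's local regularity theorem -/
theorem whiteS_of (hH : HuiskenS) (hD : DensS) (hA : AvoidS) (hP : ReachPosS) (hS : SheetS)
    (hC : CptS) (hJ : ConvJetS) (hR : ConvReachS) (hFl : ConvFlS) : WhiteS := by
  intro Λ
  obtain ⟨k, hk⟩ := Wh.no_bad hH hD hA hS hC hJ hR hFl Λ
  refine ⟨1 / ((k : ℝ) + 1), 1 / (2 * ((k : ℝ) + 2)), by positivity, by positivity,
    fun F a b X r hF hr ha _ hd p hp => ?_⟩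
  by_contra hn
  obtain ⟨G, I, h⟩ := Wh.pick hH hP (by linarith [Nat.cast_nonneg (α := ℝ) k]) hF hr ha hd hp hn
  exact hk G I h

end Crest.Agent.N250

end
end

-- ▼ part N250/Cp/Sc
section

/-!
Row 250, compactness, part 1 (helper96): forward persistence of points, the one sheet theorem at
every scale.
-/

set_option autoImplicit false
open MeasureTheory Set Filter Topology Metric
open scoped ContDiff InnerProductSpace
open Crest.GeometryTopology.MCF

noncomputable section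

namespace Crest.Agent.N250.Cp

open Tr

theorem closed_of_proper {F : Mv} {B : Set ST} (hB : IsClosed B) (hP : F.Proper B) :
    IsClosed (F.M ∩ B) := by
  refine isClosed_of_closure_subset fun p hp => ?_
  have h1 : p ∈ B := hB.closure_subset (closure_mono inter_subset_right hp)
  exact ⟨hP p (closure_mono inter_subset_left hp) h1, h1⟩

theorem proper_mono {F : Mv} {A B : Set ST} (hP : F.Proper B) (h : A ⊆ B) : F.Proper A :=
  fun p hp hA => hP p hp (h hA)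

theorem reach_le {F : Mv} {p : ST} (hn : ‖F.n p‖ = 1) {ρ σ : ℝ} (h : F.Reach p ρ)
    (hσ : σ ≤ ρ) : F.Reach p σ := by
  intro y hy
  obtain ⟨h1, h2⟩ := h y hy
  have e : ‖(ρ - σ) • F.n p‖ = ρ - σ := by
    rw [norm_smul, hn, mul_one, Real.norm_of_nonneg (by linarith)]
  have e1 : dist (p.1 + σ • F.n p) (p.1 + ρ • F.n p) = ρ - σ := by
    rw [dist_comm, dist_eq_norm, ← e]; congr 1; module
  have e2 : dist (p.1 - σ • F.n p) (p.1 - ρ • F.n p) = ρ - σ := by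
    rw [dist_eq_norm, ← e]; congr 1; module
  have t1 := dist_triangle y (p.1 + σ • F.n p) (p.1 + ρ • F.n p)
  have t2 := dist_triangle y (p.1 - σ • F.n p) (p.1 - ρ • F.n p)
  constructor <;> linarith

/-- points of a proper moving surface with bounded speed persist forward in time -/
theorem persist {F : Mv} (hF : F.Reg) {x0 : E} {t0 t1 v : ℝ} (hv : 0 ≤ v) (ht : t0 ≤ t1)
    (h0 : (x0, t0) ∈ F.M) (hP : F.Proper (closedBall x0 ((v + 1) * (t1 - t0)) ×ˢ Icc t0 t1))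
    (hV : ∀ q ∈ F.M, q ∈ closedBall x0 ((v + 1) * (t1 - t0)) ×ˢ Icc t0 t1 → |F.V q| ≤ v) :
    ∃ x1, (x1, t1) ∈ F.M ∧ dist x1 x0 ≤ (v + 1) * (t1 - t0) := by
  set B : Set ST := closedBall x0 ((v + 1) * (t1 - t0)) ×ˢ Icc t0 t1 with hB
  set S : Set ℝ := {s | ∃ y, (y, s) ∈ F.M ∧ dist y x0 ≤ (v + 1) * (s - t0)} with hS
  have hin : ∀ y s, dist y x0 ≤ (v + 1) * (s - t0) → s ∈ Icc t0 t1 → (y, s) ∈ B :=
    fun y s h1 h2 => ⟨h1.trans (by nlinarith [h2.2]), h2⟩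
  have hBc : IsCompact B := (isCompact_closedBall _ _).prod isCompact_Icc
  have hc : IsClosed (S ∩ Icc t0 t1) := by
    have h1 : IsCompact ((F.M ∩ B) ∩ {q | dist q.1 x0 ≤ (v + 1) * (q.2 - t0)}) :=
      (hBc.of_isClosed_subset (closed_of_proper hBc.isClosed hP) inter_subset_right).inter_right
        (isClosed_le (by fun_prop) (by fun_prop))
    have h2 : S ∩ Icc t0 t1 =
        Prod.snd '' ((F.M ∩ B) ∩ {q | dist q.1 x0 ≤ (v + 1) * (q.2 - t0)}) := by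
      ext s
      constructor
      · rintro ⟨⟨y, h3, h4⟩, h5⟩
        exact ⟨(y, s), ⟨⟨h3, hin y s h4 h5⟩, h4⟩, rfl⟩
      · rintro ⟨q, ⟨⟨h3, h4⟩, h5⟩, rfl⟩
        exact ⟨⟨q.1, h3, h5⟩, h4.2⟩
    rw [h2]
    exact (h1.image continuous_snd).isClosed
  refine hc.Icc_subset_of_forall_exists_gt ⟨x0, h0, by simp⟩ ?_ ⟨ht, le_rfl⟩
  rintro s ⟨⟨y, hy, hd⟩, hs⟩ s' hs'
  obtain ⟨W, φ, hW, hl⟩ := hF _ hy
  have hVy := hV _ hy (hin y s hd (Ico_subset_Icc_self hs))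
  have hn := n_unit hF hy
  have hg : gradX φ y s ≠ 0 := hl.ne _ hW
  have hg' : ‖gradX φ y s‖ ≠ 0 := norm_ne_zero_iff.2 hg
  obtain ⟨γ, g0, g1, g2⟩ := Or.exists_curve (Or.SmN.of_on hl.isOpen hl.sm hW) ((hl.mem _ hW).1 hy)
    (fun h => hg (ext_inner_right ℝ fun w => by
      have := fd_sp (loc_diff hl hW) w
      rw [h] at this
      simpa using this.symm)) (w := (F.V (y, s) • F.n (y, s), 1)) (by
      rw [fd_st (loc_diff hl hW), hl.n_eq _ hW hy, hl.V_eq _ hW hy]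
      simp only [inner_smul_right, real_inner_self_eq_norm_sq]
      field_simp
      ring)
  have g3 : ∀ᶠ σ in 𝓝 (0:ℝ), γ σ ∈ W := by
    have := g1.continuousAt.tendsto
    rw [g0] at this
    exact this.eventually (hl.isOpen.mem_nhds hW)
  have hε : (0:ℝ) < 1 / (v + 2) := by positivity
  have g4 := (hasDerivAt_iff_isLittleO.1 g1).bound hε
  have g5 : ∀ᶠ σ in 𝓝 (0:ℝ), (γ σ).2 < s' := by
    have := (continuous_snd.continuousAt.comp g1.continuousAt).tendsto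
    simp only [Function.comp_apply, g0] at this
    exact this.eventually (gt_mem_nhds hs')
  obtain ⟨σ, ⟨a1, a2, a3, a4⟩, a5⟩ := (((g2.and (g3.and (g4.and g5))).filter_mono
    (nhdsWithin_le_nhds (s := Ioi 0))).and self_mem_nhdsWithin).exists
  have a5 : 0 < σ := a5
  rw [g0, sub_zero, Real.norm_of_nonneg a5.le] at a3
  have b1 := (norm_fst_le _).trans a3
  have b2 := (norm_snd_le _).trans a3
  simp only [Prod.fst_sub, Prod.smul_fst, Prod.snd_sub, Prod.smul_snd, smul_eq_mul, mul_one,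
    Real.norm_eq_abs] at b1 b2
  have b3 : dist (γ σ).1 y ≤ v * σ + 1 / (v + 2) * σ := by
    rw [dist_eq_norm]
    have e : (γ σ).1 - y = ((γ σ).1 - y - σ • F.V (y, s) • F.n (y, s))
        + σ • F.V (y, s) • F.n (y, s) := by abel
    rw [e]
    refine (norm_add_le _ _).trans ?_
    rw [norm_smul, norm_smul, hn, mul_one, Real.norm_of_nonneg a5.le, Real.norm_eq_abs]
    nlinarith
  have b4 := (abs_le.1 b2).1
  have b5 : (v + 2) * (1 / (v + 2) * σ) = σ := by field_simp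
  have b6 : 0 < 1 / (v + 2) * σ := by positivity
  refine ⟨(γ σ).2, ⟨(γ σ).1, (hl.mem _ a2).2 a1, ?_⟩, by nlinarith, a4.le⟩
  have := dist_triangle (γ σ).1 y x0
  nlinarith

theorem jet_affine {f : ST → ℝ} {W : Set ST} (hW : IsOpen W) (hf : ContDiffOn ℝ ∞ f W)
    (L : ST →L[ℝ] ST) (a : ST) {x : ST} (hx : L (x - a) ∈ W) (m : ℕ) :
    ‖iteratedFDeriv ℝ m (fun z => f (L (z - a))) x‖ ≤
      ‖iteratedFDeriv ℝ m f (L (x - a))‖ * ‖L‖ ^ m := by
  have hW' : IsOpen (L ⁻¹' W) := hW.preimage L.continuous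
  rw [iteratedFDeriv_comp_sub (f := fun z => f (L z)),
    ← iteratedFDerivWithin_of_isOpen m hW' hx, ← iteratedFDerivWithin_of_isOpen m hW hx]
  have := L.iteratedFDerivWithin_comp_right hf hW.uniqueDiffOn hW'.uniqueDiffOn hx
    (i := m) (by exact_mod_cast le_top)
  change ‖iteratedFDerivWithin ℝ m (f ∘ L) _ _‖ ≤ _
  rw [this]
  exact (ContinuousMultilinearMap.norm_compContinuousLinearMap_le _ _).trans_eq (by simp)

/-- the one sheet theorem at the origin, in terms of the defining function -/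
theorem sheet_unit (hS : SheetS) : ∃ (c : ℝ) (C : ℕ → ℝ), 0 < c ∧ ∀ (F : Mv), F.IsMCF →
    (0 : ST) ∈ F.M → F.Proper (PC 0 1) → (∀ p ∈ F.M ∩ PC 0 1, F.Reach p 1) →
    ∃ (W : Set ST) (φ : ST → ℝ), PC 0 c ⊆ W ∧ F.Loc W φ ∧
      (∀ p ∈ PC 0 c, 1 / 2 ≤ fderiv ℝ φ p (F.n 0, 0)) ∧
      ∀ m, ∀ p ∈ PC 0 c, ‖iteratedFDeriv ℝ m φ p‖ ≤ C m := by
  obtain ⟨c, C, hc, h⟩ := hS
  have hb : ∀ m : ℕ, ∃ B : ℝ, ∀ p ∈ closedBall (0 : ST) (c + c ^ 2),
      ‖iteratedFDeriv ℝ m (fun q : ST => q.1) p‖ ≤ B := fun m =>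
    (isCompact_closedBall _ _).exists_bound_of_continuousOn
      ((contDiff_fst (n := ∞)).continuous_iteratedFDeriv (by exact_mod_cast le_top)).continuousOn
  choose B hB using hb
  refine ⟨c, fun m => B m + C m, hc, fun F hF h0 hP hR => ?_⟩
  obtain ⟨W, u, h1, h2, -, h4, h5⟩ := h F 0 hF h0 hP hR
  have hn := n_unit hF.1 h0
  set ν := F.n 0
  have hl : ContDiff ℝ ∞ fun p : ST => ⟪p.1 - (0 : ST).1, ν⟫_ℝ :=
    (contDiff_fst.sub contDiff_const).inner ℝ contDiff_const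
  have hu : ∀ p ∈ PC 0 c, ContDiffAt ℝ ∞ u p := fun p hp => by
    have := hl.contDiffAt.sub (loc_at h2 (h1 hp))
    simpa using this
  have he : (fun p : ST => ⟪p.1 - (0 : ST).1, ν⟫_ℝ) = innerSL ℝ ν ∘ fun q : ST => q.1 := by
    funext p; simp [real_inner_comm]
  refine ⟨W, _, h1, h2, fun p hp => ?_, fun m p hp => ?_⟩
  · have hd := (hu p hp).differentiableAt (by simp)
    have e1 : HasFDerivAt (fun p : ST => ⟪p.1 - (0 : ST).1, ν⟫_ℝ)
        ((innerSL ℝ ν).comp (ContinuousLinearMap.fst ℝ E ℝ)) p := by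
      rw [he]; exact (innerSL ℝ ν).hasFDerivAt.comp p hasFDerivAt_fst
    rw [(e1.fun_sub hd.hasFDerivAt).fderiv, sub_apply, fd_sp hd]
    have e2 := (real_inner_le_norm (gradX u p.1 p.2) ν).trans
      (mul_le_mul_of_nonneg_right (h4 p hp) (norm_nonneg _))
    simp only [ContinuousLinearMap.comp_apply, ContinuousLinearMap.coe_fst', innerSL_apply_apply,
      real_inner_self_eq_norm_sq, hn] at e2 ⊢
    linarith
  · have hm : (m : ℕ∞ω) ≤ ∞ := by exact_mod_cast le_top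
    rw [fun_iteratedFDeriv_sub_apply (hl.contDiffAt.of_le hm) ((hu p hp).of_le hm)]
    refine (norm_sub_le _ _).trans (add_le_add ?_ (h5 m p hp))
    rw [he]
    refine ((innerSL ℝ ν).norm_iteratedFDeriv_comp_left contDiffAt_fst hm).trans ?_
    rw [innerSL_apply_norm, hn, one_mul]
    refine hB m p ?_
    obtain ⟨a, b, d⟩ := hp
    rw [mem_ball, dist_eq_norm] at a
    rw [mem_closedBall, dist_zero_right, Prod.norm_def]
    simp only [Prod.fst_zero, Prod.snd_zero, sub_zero, zero_sub] at a b d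
    refine max_le (by nlinarith) (abs_le.2 ⟨by linarith, by nlinarith⟩)

/-- the one sheet theorem at scale `ρ` -/
theorem sheet_scaled (hS : SheetS) : ∃ c : ℝ, 0 < c ∧ ∀ ρ : ℝ, 0 < ρ → ∃ C : ℕ → ℝ,
    ∀ (F : Mv) (X : ST), F.IsMCF → X ∈ F.M → F.Proper (PC X ρ) →
    (∀ p ∈ F.M ∩ PC X ρ, F.Reach p ρ) →
    ∃ (W : Set ST) (φ : ST → ℝ), PC X (c * ρ) ⊆ W ∧ F.Loc W φ ∧
      (∀ p ∈ PC X (c * ρ), 1 / (2 * ρ) ≤ ‖gradX φ p.1 p.2‖) ∧
      ∀ m, ∀ p ∈ PC X (c * ρ), ‖iteratedFDeriv ℝ m φ p‖ ≤ C m := by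
  obtain ⟨c, C, hc, h⟩ := sheet_unit hS
  refine ⟨c, hc, fun ρ hρ => ?_⟩
  set L : ST →L[ℝ] ST :=
    (ρ⁻¹ • ContinuousLinearMap.fst ℝ E ℝ).prod ((ρ ^ 2)⁻¹ • ContinuousLinearMap.snd ℝ E ℝ) with hL
  have hLa : ∀ p : ST, L p = (ρ⁻¹ • p.1, (ρ ^ 2)⁻¹ * p.2) := fun p => rfl
  refine ⟨fun m => C m * ‖L‖ ^ m, fun F X hF hX hP hR => ?_⟩
  let s : Sim := ⟨X.1, LinearIsometryEquiv.refl ℝ E, fun _ => ρ, fun t => X.2 + ρ ^ 2 * t, univ⟩
  let s' : Sim := ⟨-(ρ⁻¹ • X.1), LinearIsometryEquiv.refl ℝ E, fun _ => ρ⁻¹,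
    fun t => (ρ ^ 2)⁻¹ * (t - X.2), univ⟩
  have hs : ∀ p : ST, s.map p = (X.1 + ρ • p.1, X.2 + ρ ^ 2 * p.2) := fun p => rfl
  have hs' : ∀ p : ST, s'.map p = L (p - X) := fun p => by
    rw [hLa]
    refine Prod.ext ?_ rfl
    change -(ρ⁻¹ • X.1) + ρ⁻¹ • p.1 = ρ⁻¹ • (p.1 - X.1)
    module
  have hss : ∀ p : ST, s.map (s'.map p) = p := fun p => by
    rw [hs', hs, hLa]
    refine Prod.ext ?_ ?_
    · simp [smul_smul, hρ.ne']
    · simp only [Prod.snd_sub]; field_simp; ring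
  have hd1 : ∀ t, deriv (fun t => X.2 + ρ ^ 2 * t) t = ρ ^ 2 := fun t => by
    simp
  have hd2 : ∀ t, deriv (fun t => (ρ ^ 2)⁻¹ * (t - X.2)) t = (ρ ^ 2)⁻¹ := fun t => by
    simp
  let G : Mv := ⟨s.map ⁻¹' F.M, fun p => F.n (s.map p), fun p => ρ * F.V (s.map p)⟩
  have p1 : Pull s F G := ⟨⟨isOpen_univ, fun _ _ => hρ, fun _ _ => contDiffAt_const,
    fun _ _ => by change ContDiffAt ℝ ∞ (fun t => X.2 + ρ ^ 2 * t) _; fun_prop⟩,
    fun p => by simp [G, s], fun _ _ => rfl, fun p _ => by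
      change ρ * F.V (s.map p) = (deriv (fun t => X.2 + ρ ^ 2 * t) p.2 * F.V (s.map p)
        - deriv (fun _ => ρ) p.2 * _) / ρ
      rw [hd1, deriv_const]; field_simp; ring⟩
  have p2 : Pull s' G F := ⟨⟨isOpen_univ, fun _ _ => inv_pos.2 hρ, fun _ _ => contDiffAt_const,
    fun _ _ => by change ContDiffAt ℝ ∞ (fun t => (ρ ^ 2)⁻¹ * (t - X.2)) _; fun_prop⟩,
    fun p => by
      change _ ↔ p ∈ univ ∧ s.map (s'.map p) ∈ F.M
      rw [hss]; simp,
    fun p _ => by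
      change _ = F.n (s.map (s'.map p))
      rw [hss],
    fun p _ => by
      change _ = (deriv (fun t => (ρ ^ 2)⁻¹ * (t - X.2)) p.2 * (ρ * F.V (s.map (s'.map p)))
        - deriv (fun _ => ρ⁻¹) p.2 * _) / ρ⁻¹
      rw [hd2, deriv_const, hss]; field_simp; ring⟩
  have hsc : Continuous s.map := by
    change Continuous fun p : ST => (X.1 + ρ • p.1, X.2 + ρ ^ 2 * p.2); fun_prop
  have hPC : ∀ p ∈ PC 0 1, s.map p ∈ PC X ρ := by
    rintro p ⟨a, b, d⟩
    rw [mem_ball, dist_eq_norm] at a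
    simp only [Prod.fst_zero, Prod.snd_zero, sub_zero, zero_sub, one_pow] at a b d
    have hρ2 : 0 < ρ ^ 2 := by positivity
    rw [hs]
    refine ⟨?_, by dsimp only; nlinarith, by dsimp only; nlinarith⟩
    rw [mem_ball, dist_eq_norm, add_sub_cancel_left, norm_smul, Real.norm_of_nonneg hρ.le]
    nlinarith
  have hPC' : ∀ p ∈ PC X (c * ρ), L (p - X) ∈ PC 0 c := by
    rintro p ⟨a, b, d⟩
    rw [mem_ball, dist_eq_norm] at a
    have hρ2 : 0 < ρ ^ 2 := by positivity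
    rw [hLa]
    refine ⟨?_, ?_, ?_⟩
    · rw [mem_ball, dist_eq_norm, Prod.fst_zero, sub_zero, norm_smul,
        Real.norm_of_nonneg (inv_pos.2 hρ).le, inv_mul_lt_iff₀ hρ, mul_comm]
      exact a
    · simp only [Prod.snd_zero, Prod.snd_sub, zero_sub]
      rw [lt_inv_mul_iff₀ hρ2]; nlinarith
    · simp only [Prod.snd_zero, Prod.snd_sub]
      exact mul_nonpos_of_nonneg_of_nonpos (by positivity) (by linarith)
  have h0 : s.map 0 = X := by rw [hs]; simp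
  obtain ⟨W, φ, h1, h2, h3, h4⟩ := h G
    ⟨p1.reg hF.1, fun p hp => by
      rw [p1.H hF.1 hp, ← mul_neg, ← hF.2 _ (p1.M hp)]⟩
    (by change s.map 0 ∈ F.M; rwa [h0])
    (fun p hp hp2 => hP _ (map_mem_closure hsc hp fun _ h => h) (hPC p hp2))
    (fun p hp y hy => by
      obtain ⟨a, b⟩ := hR _ ⟨hp.1, hPC p hp.2⟩ (X.1 + ρ • y) hy
      change _ ≤ dist y (p.1 + (1:ℝ) • F.n (s.map p)) ∧ _ ≤ dist y (p.1 - (1:ℝ) • F.n (s.map p))
      rw [dist_eq_norm] at a b ⊢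
      rw [dist_eq_norm]
      have e1 : X.1 + ρ • y - ((s.map p).1 + ρ • F.n (s.map p))
          = ρ • (y - (p.1 + (1:ℝ) • F.n (s.map p))) := by rw [hs]; module
      have e2 : X.1 + ρ • y - ((s.map p).1 - ρ • F.n (s.map p))
          = ρ • (y - (p.1 - (1:ℝ) • F.n (s.map p))) := by rw [hs]; module
      rw [e1, norm_smul, Real.norm_of_nonneg hρ.le] at a
      rw [e2, norm_smul, Real.norm_of_nonneg hρ.le] at b
      exact ⟨(le_mul_iff_one_le_right hρ).1 a, (le_mul_iff_one_le_right hρ).1 b⟩)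
  have hl := p2.loc h2
  have hφ : φ ∘ s'.map = fun z => φ (L (z - X)) := funext fun z => by
    rw [Function.comp_apply, hs']
  have hsub : PC X (c * ρ) ⊆ s'.U ∩ s'.map ⁻¹' W := fun p hp =>
    ⟨mem_univ _, by rw [mem_preimage, hs']; exact h1 (hPC' p hp)⟩
  refine ⟨_, _, hsub, hl, fun p hp => ?_, fun m p hp => ?_⟩
  · have hn := n_unit hF.1 hX
    have e1 := fd_sp (loc_diff hl (hsub hp)) (F.n X)
    have e2 : HasFDerivAt (fun z : ST => L (z - X)) L p := by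
      have := L.hasFDerivAt.comp p ((hasFDerivAt_id p).sub_const X)
      rw [ContinuousLinearMap.comp_id] at this
      exact this
    have e3 := (loc_diff h2 (h1 (hPC' p hp))).hasFDerivAt.comp p e2
    have e4 : fderiv ℝ (φ ∘ s'.map) p = (fderiv ℝ φ (L (p - X))).comp L := by
      rw [hφ]; exact e3.fderiv
    have e5 := h3 _ (hPC' p hp)
    have e6 : G.n 0 = F.n X := by change F.n (s.map 0) = _; rw [h0]
    have e7 : L (F.n X, 0) = ρ⁻¹ • (F.n X, 0) := by rw [hLa]; simp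
    rw [e4, ContinuousLinearMap.comp_apply, e7, map_smul, smul_eq_mul] at e1
    rw [e6] at e5
    have e8 := real_inner_le_norm (gradX (φ ∘ s'.map) p.1 p.2) (F.n X)
    rw [hn, mul_one, ← e1] at e8
    refine le_trans ?_ e8
    rw [one_div, mul_inv, mul_comm]
    exact mul_le_mul_of_nonneg_left (by linarith) (inv_pos.2 hρ).le
  · rw [hφ]
    exact (jet_affine h2.isOpen h2.sm L X (h1 (hPC' p hp)) m).trans
      (mul_le_mul_of_nonneg_right (h4 m _ (hPC' p hp)) (by positivity))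

end Crest.Agent.N250.Cp

end
end

-- ▼ part N250/Cp/Cpt

/-!
Row 250, compactness, part 2 (helper96): `CptS` from `SheetS`.
-/

set_option autoImplicit false
open MeasureTheory Set Filter Topology Metric
open scoped ContDiff InnerProductSpace
open Crest.GeometryTopology.MCF

noncomputable section

namespace Crest.Agent.N250.Cp

open Tr Cv

theorem PC_sub {X : ST} {ρ : ℝ} (h0 : 0 < ρ) (h1 : ρ ≤ 1) : PC X ρ ⊆ closedBall X ρ := by
  rintro p ⟨a, b, d⟩
  rw [← closedBall_prod_same]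
  refine ⟨ball_subset_closedBall a, ?_⟩
  rw [mem_closedBall, Real.dist_eq, abs_le]
  constructor <;> nlinarith

/-- uniform charts around a limit point -/
theorem exists_chart (hS : SheetS) {α : Type} {l : Filter α} [l.NeBot] {Fk : α → Mv} {p : ST}
    {U : Set ST}
    (hU : U ∈ 𝓝 p) {ρ₀ : ℝ} (hρ₀ : 0 < ρ₀)
    (h : ∀ᶠ k in l, (Fk k).IsMCF ∧ (Fk k).Proper U ∧ ∀ q ∈ (Fk k).M ∩ U, (Fk k).Reach q ρ₀)
    (hp : ∀ ε > 0, ∀ᶠ k in l, ∃ q ∈ (Fk k).M, dist q p < ε) :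
    ∃ (δ b : ℝ) (C : ℕ → ℝ) (φk : α → ST → ℝ), 0 < δ ∧ 0 < b ∧ ball p δ ⊆ U ∧
      ∀ᶠ k in l, (Fk k).Loc (ball p δ) (φk k) ∧ (∀ q ∈ ball p δ, b ≤ ‖gradX (φk k) q.1 q.2‖) ∧
        ∀ m, ∀ q ∈ ball p δ, ‖iteratedFDeriv ℝ m (φk k) q‖ ≤ C m := by
  obtain ⟨c, hc, hs⟩ := sheet_scaled hS
  obtain ⟨r, hr, hrU⟩ := nhds_basis_closedBall.mem_iff.1 hU
  set ρ := min ρ₀ (min (r / 2) 1) with hρ
  have hρ0 : 0 < ρ := by positivity
  have hρ1 : ρ ≤ ρ₀ := min_le_left _ _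
  have hρ2 : ρ ≤ r / 2 := (min_le_right _ _).trans (min_le_left _ _)
  have hρ3 : ρ ≤ 1 := (min_le_right _ _).trans (min_le_right _ _)
  obtain ⟨C, hC⟩ := hs ρ hρ0
  have key : ∀ F : Mv, F.IsMCF → F.Proper U → (∀ q ∈ F.M ∩ U, F.Reach q ρ₀) → ∀ X ∈ F.M,
      dist X p ≤ r / 2 → ∃ (W : Set ST) (φ : ST → ℝ), PC X (c * ρ) ⊆ W ∧ F.Loc W φ ∧
      (∀ q ∈ PC X (c * ρ), 1 / (2 * ρ) ≤ ‖gradX φ q.1 q.2‖) ∧
      ∀ m, ∀ q ∈ PC X (c * ρ), ‖iteratedFDeriv ℝ m φ q‖ ≤ C m := by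
    intro F h1 h2 h3 X hX hd
    have hsub : PC X ρ ⊆ U := fun q hq => hrU (by
      have := PC_sub hρ0 hρ3 hq
      rw [mem_closedBall] at this ⊢
      linarith [dist_triangle q X p])
    exact hC F X h1 hX (proper_mono h2 hsub) fun q hq =>
      reach_le (n_unit h1.1 hq.1) (h3 q ⟨hq.1, hsub hq.2⟩) hρ1
  set σ := c * ρ with hσ
  have hσ0 : 0 < σ := by positivity
  set v := 2 * ρ * |C 1| with hv
  have hv0 : 0 ≤ v := by positivity
  have hV : ∀ F : Mv, F.IsMCF → F.Proper U → (∀ q ∈ F.M ∩ U, F.Reach q ρ₀) → ∀ X ∈ F.M,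
      dist X p ≤ r / 2 → |F.V X| ≤ v := by
    intro F h1 h2 h3 X hX hd
    obtain ⟨W, φ, a1, a2, a3, a4⟩ := key F h1 h2 h3 X hX hd
    have hXP : X ∈ PC X σ := ⟨mem_ball_self hσ0, by linarith [sq_pos_of_pos hσ0], le_rfl⟩
    have b1 := a3 X hXP
    have b2 := a4 1 X hXP
    rw [norm_iteratedFDeriv_one] at b2
    have b3 : |dT φ X| ≤ |C 1| := by
      rw [← fd_tm (loc_diff a2 (a1 hXP))]
      have := (fderiv ℝ φ X).le_opNorm (0, 1)
      simp only [Prod.norm_mk, norm_zero, norm_one, zero_le_one, sup_of_le_right, mul_one,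
        Real.norm_eq_abs] at this
      exact this.trans (b2.trans (le_abs_self _))
    have b4 : 0 < 1 / (2 * ρ) := by positivity
    rw [a2.V_eq X (a1 hXP) hX, abs_div, abs_neg, abs_norm, div_le_iff₀ (b4.trans_le b1)]
    calc |dT φ X| ≤ |C 1| := b3
      _ = v * (1 / (2 * ρ)) := by rw [hv]; field_simp
      _ ≤ _ := mul_le_mul_of_nonneg_left b1 hv0
  set δ := min (min (r / 2) σ / (2 * v + 4)) (σ ^ 2 / 2) with hδ
  have hδ0 : 0 < δ := by positivity
  have hδ1 : δ * (2 * v + 4) ≤ min (r / 2) σ :=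
    (le_div_iff₀ (by positivity)).1 (min_le_left _ _)
  have hδ2 : δ * (2 * v + 4) ≤ r / 2 := hδ1.trans (min_le_left _ _)
  have hδ3 : δ * (2 * v + 4) ≤ σ := hδ1.trans (min_le_right _ _)
  have hδ4 : δ ≤ σ ^ 2 / 2 := min_le_right _ _
  have hvδ : 0 ≤ v * δ := by positivity
  have main : ∀ᶠ k in l, ∃ φ : ST → ℝ, (Fk k).Loc (ball p δ) φ ∧
      (∀ q ∈ ball p δ, 1 / (2 * ρ) ≤ ‖gradX φ q.1 q.2‖) ∧
        ∀ m, ∀ q ∈ ball p δ, ‖iteratedFDeriv ℝ m φ q‖ ≤ C m := by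
    filter_upwards [h, hp δ hδ0] with k ⟨h1, h2, h3⟩ ⟨q, hq, hd⟩
    have d1 : dist q.1 p.1 < δ := (le_max_left _ _).trans_lt hd
    have d2 : dist q.2 p.2 < δ := (le_max_right _ _).trans_lt hd
    rw [Real.dist_eq, abs_lt] at d2
    have d3 : (v + 1) * (p.2 + δ - q.2) ≤ (v + 1) * (2 * δ) :=
      mul_le_mul_of_nonneg_left (by linarith) (by linarith)
    have hB : ∀ z ∈ closedBall q.1 ((v + 1) * (p.2 + δ - q.2)) ×ˢ Icc q.2 (p.2 + δ),
        dist z p ≤ r / 2 := by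
      rintro z ⟨a, b, d⟩
      rw [mem_closedBall] at a
      rw [Prod.dist_eq, Real.dist_eq]
      refine max_le ?_ (abs_le.2 ⟨by nlinarith, by nlinarith⟩)
      nlinarith [dist_triangle z.1 q.1 p.1]
    obtain ⟨x1, e1, e2⟩ := persist h1.1 hv0 (t0 := q.2) (t1 := p.2 + δ) (by linarith) hq
      (proper_mono h2 fun z hz => hrU ((hB z hz).trans (by linarith)))
      (fun z hz hz2 => hV _ h1 h2 h3 z hz (hB z hz2))
    obtain ⟨W, φ, a1, a2, a3, a4⟩ := key _ h1 h2 h3 _ e1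
      (hB _ ⟨e2, by dsimp only; linarith, le_rfl⟩)
    have hsub : ball p δ ⊆ PC (x1, p.2 + δ) σ := fun z hz => by
      have z1 : dist z.1 p.1 < δ := (le_max_left _ _).trans_lt hz
      have z2 : dist z.2 p.2 < δ := (le_max_right _ _).trans_lt hz
      rw [Real.dist_eq, abs_lt] at z2
      refine ⟨?_, by dsimp only; linarith, by dsimp only; linarith⟩
      rw [mem_ball]
      have t1 := dist_triangle4 z.1 p.1 q.1 x1
      rw [dist_comm p.1 q.1, dist_comm q.1 x1] at t1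
      dsimp only
      nlinarith
    exact ⟨φ, ⟨isOpen_ball, a2.sm.mono (hsub.trans a1), fun z hz => a2.ne z (a1 (hsub hz)),
      fun z hz => a2.mem z (a1 (hsub hz)), fun z hz => a2.n_eq z (a1 (hsub hz)),
      fun z hz => a2.V_eq z (a1 (hsub hz))⟩, fun z hz => a3 z (hsub hz),
      fun m z hz => a4 m z (hsub hz)⟩
  obtain ⟨φk, hφk⟩ := main.choice
  exact ⟨δ, 1 / (2 * ρ), C, φk, hδ0, by positivity,
    (ball_subset_closedBall.trans (closedBall_subset_closedBall (by nlinarith))).trans hrU, hφk⟩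

/-- **Compactness theorem.** -/
theorem cptS_of (hS : SheetS) : CptS := by
  intro α l Fk Ω hΩ h
  set K : Set ST := {p | p ∈ Ω ∧ ∀ ε > 0, ∀ᶠ k in (l : Filter α), ∃ q ∈ (Fk k).M, dist q p < ε}
    with hK
  have hsel : ∀ p : ST, ∃ pk : α → ST, p ∈ K →
      Tendsto pk l (𝓝 p) ∧ ∀ᶠ k in (l : Filter α), pk k ∈ (Fk k).M := by
    intro p
    by_cases hp : p ∈ K
    swap
    · exact ⟨fun _ => p, fun h => absurd h hp⟩
    obtain ⟨U, hU, ρ, -, hk⟩ := h p hp.1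
    obtain ⟨r, hr, hrU⟩ := nhds_basis_closedBall.mem_iff.1 hU
    obtain ⟨pk, h1, h2⟩ := exists_tendsto_of_closed (l := l) (x := p)
      (S := fun k => (Fk k).M ∩ closedBall p r)
      (hk.mono fun k a => closed_of_proper isClosed_closedBall (proper_mono a.2.1 hrU))
      (fun ε hε => (hp.2 (min ε r) (lt_min hε hr)).mono fun k ⟨q, a, b⟩ =>
        ⟨q, ⟨a, (b.trans_le (min_le_right _ _)).le⟩, b.trans_le (min_le_left _ _)⟩)
    exact ⟨pk, fun _ => ⟨h1, h2.mono fun _ a => a.1⟩⟩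
  choose sel hsel using hsel
  have hmem : ∀ (p : ST) (pk : α → ST), p ∈ Ω → Tendsto pk l (𝓝 p) →
      (∀ᶠ k in (l : Filter α), pk k ∈ (Fk k).M) → p ∈ K := fun p pk a b d =>
    ⟨a, fun ε hε => by
      filter_upwards [d, Metric.tendsto_nhds.1 b ε hε] with k e1 e2 using ⟨_, e1, e2⟩⟩
  let F : Mv := ⟨K, fun p => limUnder l fun k => (Fk k).n (sel p k),
    fun p => limUnder l fun k => (Fk k).V (sel p k)⟩
  have hnear : ∀ p ∈ Ω, p ∈ F.M → ∃ (W : Set ST) (φ : ST → ℝ) (φk : α → ST → ℝ), p ∈ W ∧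
      F.Loc W φ ∧ (∀ᶠ k in (l : Filter α), (Fk k).Loc W (φk k)) ∧
      ∀ m : ℕ, TendstoLocallyUniformlyOn (fun k => iteratedFDeriv ℝ m (φk k))
        (iteratedFDeriv ℝ m φ) l W := by
    intro p hp hpK
    obtain ⟨U, hU, ρ, hρ, hk⟩ := h p hp
    obtain ⟨δ, b, C, φk, hδ, hb, hsub, hφk⟩ := exists_chart hS (inter_mem hU (hΩ.mem_nhds hp)) hρ
      (hk.mono fun k a => ⟨a.1, proper_mono a.2.1 inter_subset_left,
        fun q hq => a.2.2 q ⟨hq.1, hq.2.1⟩⟩) hpK.2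
    have hloc := hφk.mono fun k a => a.1
    obtain ⟨φ, hφ, hJ⟩ := Gr.sm_lim l φk isOpen_ball (convex_ball p δ) isBounded_ball
      (hloc.mono fun k a => a.sm) (fun m => ⟨C m, hφk.mono fun k a => a.2.2 m⟩)
    have ht : ∀ m : ℕ, TendstoLocallyUniformlyOn (fun k => iteratedFDeriv ℝ m (φk k))
        (iteratedFDeriv ℝ m φ) l (ball p δ) := fun m => (hJ m).tendstoLocallyUniformlyOn
    have hjc : ∀ q ∈ ball p δ, ∀ qk : α → ST, Tendsto qk l (𝓝 q) → JC l φk qk φ q :=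
      fun q hq qk hqk => jc_of_tlu isOpen_ball hφ (hloc.mono fun k a => a.sm) ht hq hqk
    have hd : ∀ q ∈ ball p δ, DifferentiableAt ℝ φ q := fun q hq =>
      (hφ.contDiffAt (isOpen_ball.mem_nhds hq)).differentiableAt (by simp)
    have hne : ∀ q ∈ ball p δ, gr φ q ≠ 0 := fun q hq => by
      have e1 := (jc_gr (hjc q hq _ tendsto_const_nhds)).val.norm
      have e2 : b ≤ ‖gr φ q‖ := ge_of_tendsto e1 (hφk.mono fun k a => by
        rw [gr_eq (loc_diff a.1 hq)]; exact a.2.1 q hq)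
      exact norm_pos_iff.1 (hb.trans_le e2)
    have hne' : ∀ q ∈ ball p δ, gradX φ q.1 q.2 ≠ 0 := fun q hq => by
      rw [← gr_eq (hd q hq)]; exact hne q hq
    have hin : ∀ q ∈ ball p δ, q ∈ K → ∀ᶠ k in (l : Filter α), sel q k ∈ ball p δ :=
      fun q hq hqK => (hsel q hqK).1.eventually (isOpen_ball.mem_nhds hq)
    refine ⟨ball p δ, φ, φk, mem_ball_self hδ, ⟨isOpen_ball, hφ, hne', fun q hq => ⟨fun hqK => ?_,
      fun h0 => ?_⟩, fun q hq hqK => ?_, fun q hq hqK => ?_⟩, hloc, ht⟩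
    · refine tendsto_nhds_unique (hjc q hq _ (hsel q hqK).1).val
        (tendsto_const_nhds.congr' ?_)
      filter_upwards [hloc, hin q hq hqK, (hsel q hqK).2] with k a1 a2 a3
      exact ((a1.mem _ a2).1 a3).symm
    · let Z : Mv := ⟨{z | φ z = 0}, fun z => ‖gradX φ z.1 z.2‖⁻¹ • gradX φ z.1 z.2,
        fun z => -dT φ z / ‖gradX φ z.1 z.2‖⟩
      obtain ⟨xk, a1, a2⟩ := exists_pts (F := Z) ⟨isOpen_ball, hφ, hne', fun _ _ => Iff.rfl,
        fun _ _ _ => rfl, fun _ _ _ => rfl⟩ hloc ht hq h0 (tk := fun _ => q.2) tendsto_const_nhds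
      exact hmem q (fun k => (xk k, q.2)) (hsub hq).2 (a1.prodMk_nhds tendsto_const_nhds) a2
    · rw [← gr_eq (hd q hq)]
      refine Tendsto.limUnder_eq
        ((jc_aN (hjc q hq _ (hsel q hqK).1) (hne q hq)).val.congr' ?_)
      filter_upwards [hloc, hin q hq hqK, (hsel q hqK).2] with k a1 a2 a3
      exact (n_eq_aN a1 a2 a3).symm
    · rw [← gr_eq (hd q hq), ← fd_tm (hd q hq), div_eq_mul_inv]
      refine Tendsto.limUnder_eq
        ((jc_aV (hjc q hq _ (hsel q hqK).1) (hne q hq)).val.congr' ?_)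
      filter_upwards [hloc, hin q hq hqK, (hsel q hqK).2] with k a1 a2 a3
      exact (V_eq_aV a1 a2 a3).symm
  have hconv : Conv l Fk F Ω := by
    refine ⟨fun p hp hpK => ?_, hnear⟩
    have : ¬ ∀ ε > 0, ∀ᶠ k in (l : Filter α), ∃ q ∈ (Fk k).M, dist q p < ε :=
      fun h1 => hpK ⟨hp, h1⟩
    push Not at this
    obtain ⟨ε, hε, h1⟩ := this
    refine ⟨ball p ε, ball_mem_nhds p hε, ?_⟩
    filter_upwards [h1] with k hk
    exact disjoint_left.2 fun q a b => absurd a (not_lt.2 (hk q b))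
  refine ⟨F, ⟨fun p hp => ?_, fun p hp => ?_⟩, fun p hp => hp.1, fun p hp hpΩ => ?_, hconv⟩
  · obtain ⟨W, φ, -, a1, a2, -⟩ := hnear p hp.1 hp
    exact ⟨W, φ, a1, a2⟩
  · obtain ⟨-, a1, a2⟩ := (convJetS_holds α l Fk F Ω hconv).1 (sel p) p hp.1 (hsel p hp).1
      (hsel p hp).2
    obtain ⟨U, -, ρ, -, hk⟩ := h p hp.1
    have a3 : Tendsto (fun k => -(Fk k).H (sel p k)) l (𝓝 (-F.H p)) := by
      simp only [Mv.H, Finset.sum_apply]
      exact (tendsto_finsetSum _ fun a _ => a2 [a] a).neg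
    refine tendsto_nhds_unique a1 (a3.congr' ?_)
    filter_upwards [hk, (hsel p hp).2] with k b1 b2
    exact (b1.1.2 _ b2).symm
  · refine ⟨hpΩ, fun ε hε => ?_⟩
    obtain ⟨q, hq, hd⟩ := Metric.mem_closure_iff.1 hp (ε / 2) (half_pos hε)
    filter_upwards [hq.2 (ε / 2) (half_pos hε)] with k ⟨z, a, b⟩
    exact ⟨z, a, by linarith [dist_triangle z q p, dist_comm p q]⟩

end Crest.Agent.N250.Cp

end
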